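import Vale.Agent.P166.NW.Base
import Vale.Agent.P157.Parisi.Site.Levels

/-!
The site value is decreasing in the field path: a larger path is a smaller one followed by extra
steps with smaller exponents, and a step of the terminal function costs at most half its variance.
-/

noncomputable section

open MeasureTheory ProbabilityTheory
open scoped BigOperators

namespace Vale.Agent.P166.NW

open Vale.Agent.P157 Vale.Agent.P157.Parisi Vale.Agent.P157.Parisi.Site
open Vale.Agent.P168.Cascade (Exps top)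

variable {A B : ℝ} {F G : ℝ → ℝ}

/-- A number above a value at the origin. -/
lemma grow_nonneg (h : Grow A F) : 0 ≤ A := by
  have h1 := h.le 0
  have h2 := h.nonneg 0
  rw [abs_zero, add_zero] at h1
  linarith

lemma integrable_shift (hF : Grow A F) (x a : ℝ) :
    Integrable (fun g => F (x + a * g)) (gaussianReal 0 1) := by
  refine (hF.integrable_exp zero_le_one x a).mono' (hF.meas.comp (by fun_prop)).aestronglyMeasurable
    (ae_of_all _ fun g => ?_)
  rw [Real.norm_eq_abs, abs_of_nonneg (hF.nonneg _), one_mul]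
  linarith [Real.add_one_le_exp (F (x + a * g))]

/-- The exponential of a step is the plain mean of the exponential. -/
lemma exp_layer (hF : Grow A F) {m : ℝ} (hm : 0 < m) (δ x : ℝ) :
    Real.exp (m * layer m δ F x) = spread δ (fun y => Real.exp (m * F y)) x := by
  rw [layer, ← mul_assoc, mul_one_div_cancel hm.ne', one_mul,
    Real.exp_log (zero_lt_one.trans_le (hF.one_le hm.le x _))]
  rfl

lemma layer_semigroup (hF : Grow A F) {m : ℝ} (hm : 0 < m) (hm1 : m ≤ 1) {a b : ℝ} (ha : 0 ≤ a)
    (hb : 0 ≤ b) (x : ℝ) : layer m a (layer m b F) x = layer m (a + b) F x := by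
  have hbd : ∀ y, |Real.exp (m * F y)| ≤ Real.exp (m * A) * Real.exp |y| := fun y => by
    rw [abs_of_pos (Real.exp_pos _), ← Real.exp_add]
    refine Real.exp_le_exp.2 ?_
    have h1 := mul_le_mul_of_nonneg_left (hF.le y) hm.le
    have h2 := mul_le_mul_of_nonneg_right hm1 (abs_nonneg y)
    linarith
  obtain ⟨-, h⟩ := spread_spread (hF.meas.const_mul m).exp hbd ha hb x
  rw [layer, layer.eq_def m (a + b)]
  congr 2
  simp only [exp_layer hF hm]
  exact h

lemma layer_mono_fun (hF : Grow A F) (hG : Grow B G) (h : ∀ y, F y ≤ G y) {m : ℝ} (hm : 0 < m)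
    (δ x : ℝ) : layer m δ F x ≤ layer m δ G x :=
  mul_le_mul_of_nonneg_left (Real.log_le_log (zero_lt_one.trans_le (hF.one_le hm.le x _))
    (integral_mono (hF.integrable_exp hm.le x _) (hG.integrable_exp hm.le x _)
      fun g => Real.exp_le_exp.2 (mul_le_mul_of_nonneg_left (h _) hm.le))) (by positivity)

lemma layer_le_add (hF : Grow A F) (hG : Grow B G) {c : ℝ} (h : ∀ y, F y ≤ G y + c) {m : ℝ}
    (hm : 0 < m) (δ x : ℝ) : layer m δ F x ≤ layer m δ G x + c := by
  have hFi := hF.integrable_exp hm.le x (Real.sqrt δ)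
  have hGi := hG.integrable_exp hm.le x (Real.sqrt δ)
  have hGp := zero_lt_one.trans_le (hG.one_le hm.le x (Real.sqrt δ))
  have h1 : ∫ g, Real.exp (m * F (x + Real.sqrt δ * g)) ∂gaussianReal 0 1 ≤
      Real.exp (m * c) * ∫ g, Real.exp (m * G (x + Real.sqrt δ * g)) ∂gaussianReal 0 1 := by
    rw [← integral_const_mul]
    refine integral_mono hFi (hGi.const_mul _) fun g => ?_
    rw [← Real.exp_add]
    have := mul_le_mul_of_nonneg_left (h (x + Real.sqrt δ * g)) hm.le
    exact Real.exp_le_exp.2 (by linarith)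
  have h2 := Real.log_le_log (zero_lt_one.trans_le (hF.one_le hm.le x _)) h1
  rw [Real.log_mul (Real.exp_pos _).ne' hGp.ne', Real.log_exp] at h2
  have h3 := mul_le_mul_of_nonneg_left h2 (show 0 ≤ 1 / m by positivity)
  rw [mul_add, ← mul_assoc, one_div_mul_cancel hm.ne', one_mul] at h3
  simp only [layer]
  linarith

/-- Steps increase with the exponent. -/
lemma layer_mono_exp (hF : Grow A F) {m' m : ℝ} (hm' : 0 < m') (hle : m' ≤ m) (δ x : ℝ) :
    layer m' δ F x ≤ layer m δ F x := by
  have hm : 0 < m := hm'.trans_le hle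
  set a := ∫ g, Real.exp (m * F (x + Real.sqrt δ * g)) ∂gaussianReal 0 1 with ha_def
  set b := ∫ g, Real.exp (m' * F (x + Real.sqrt δ * g)) ∂gaussianReal 0 1 with hb_def
  have ha : 0 < a := zero_lt_one.trans_le (hF.one_le hm.le x _)
  have hb : 0 < b := zero_lt_one.trans_le (hF.one_le hm'.le x _)
  set p := m' / m
  have hp : 0 ≤ p := by positivity
  have hp1 : p ≤ 1 := (div_le_one hm).2 hle
  have hia := (hF.integrable_exp hm.le x (Real.sqrt δ)).const_mul (p / a)
  have hib := (hF.integrable_exp hm'.le x (Real.sqrt δ)).const_mul (Real.exp (-(p * Real.log a)))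
  have h1 : Real.exp (-(p * Real.log a)) * b ≤ p / a * a + (1 - p) := by
    calc Real.exp (-(p * Real.log a)) * b = ∫ g, Real.exp (-(p * Real.log a)) *
          Real.exp (m' * F (x + Real.sqrt δ * g)) ∂gaussianReal 0 1 := (integral_const_mul _ _).symm
      _ ≤ ∫ g, (p / a * Real.exp (m * F (x + Real.sqrt δ * g)) + (1 - p)) ∂gaussianReal 0 1 := by
        refine integral_mono hib (hia.add (integrable_const _)) fun g => ?_
        have h := exp_mul_le p (m * F (x + Real.sqrt δ * g) - Real.log a) hp hp1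
        have e : p * (m * F (x + Real.sqrt δ * g) - Real.log a) =
            -(p * Real.log a) + m' * F (x + Real.sqrt δ * g) := by
          simp only [p]; field_simp; ring
        rw [e, Real.exp_add, Real.exp_sub, Real.exp_log ha] at h
        refine h.trans_eq ?_
        ring
      _ = _ := by
        rw [integral_add hia (integrable_const _), integral_const_mul]
        simp [a]
  rw [div_mul_cancel₀ _ ha.ne', add_sub_cancel] at h1
  have h2 := Real.log_le_log (mul_pos (Real.exp_pos _) hb) h1
  rw [Real.log_mul (Real.exp_pos _).ne' hb.ne', Real.log_exp, Real.log_one] at h2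
  have h3 := mul_le_mul_of_nonneg_left (show Real.log b ≤ p * Real.log a by linarith)
    (show 0 ≤ 1 / m' by positivity)
  simp only [layer, ← ha_def, ← hb_def]
  refine h3.trans_eq ?_
  simp only [p]
  field_simp

/-- A step is at least the plain mean. -/
lemma spread_le_layer (hF : Grow A F) {m : ℝ} (hm : 0 < m) (δ x : ℝ) :
    spread δ F x ≤ layer m δ F x := by
  set a := ∫ g, Real.exp (m * F (x + Real.sqrt δ * g)) ∂gaussianReal 0 1 with ha_def
  have ha : 0 < a := zero_lt_one.trans_le (hF.one_le hm.le x _)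
  have hi := integrable_shift hF x (Real.sqrt δ)
  have h1 : ∫ g, (m * F (x + Real.sqrt δ * g) - Real.log a + 1) ∂gaussianReal 0 1 ≤
      ∫ g, Real.exp (m * F (x + Real.sqrt δ * g)) / a ∂gaussianReal 0 1 := by
    refine integral_mono (((hi.const_mul m).sub (integrable_const _)).add (integrable_const _))
      ((hF.integrable_exp hm.le x _).div_const a) fun g => ?_
    refine (Real.add_one_le_exp _).trans_eq ?_
    rw [Real.exp_sub, Real.exp_log ha]
  rw [integral_div, div_self ha.ne', integral_add, integral_sub, integral_const_mul] at h1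
  · simp only [integral_const, probReal_univ, smul_eq_mul, one_mul] at h1
    simp only [layer, spread, ← ha_def]
    rw [one_div, le_inv_mul_iff₀ hm]
    linarith
  · exact hi.const_mul m
  · exact integrable_const _
  · exact (hi.const_mul m).sub (integrable_const _)
  · exact integrable_const _

/-- The terminal function of the site part. -/
abbrev logCosh (x : ℝ) : ℝ := Real.log (Real.cosh x)

lemma grow_logCosh' : Grow 0 logCosh where
  meas := by unfold logCosh; fun_prop
  nonneg x := Real.log_nonneg (Real.one_le_cosh x)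
  le x := by
    rw [zero_add, Real.log_le_iff_le_exp (Real.cosh_pos x), Real.cosh_eq, div_le_iff₀ two_pos]
    have h1 := Real.exp_le_exp.2 (le_abs_self x)
    have h2 := Real.exp_le_exp.2 (neg_le_abs x)
    linarith

lemma layer_logCosh {m d : ℝ} (hm : 0 < m) (hm1 : m ≤ 1) (hd : 0 ≤ d) (x : ℝ) :
    layer m d logCosh x ≤ logCosh x + d / 2 := by
  refine (layer_mono_exp grow_logCosh' hm hm1 d x).trans_eq ?_
  have hmgf : ∀ c : ℝ, ∫ g, Real.exp (c * g) ∂gaussianReal 0 1 = Real.exp (c ^ 2 / 2) := fun c => by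
    simpa [mgf] using congrFun (mgf_id_gaussianReal (μ := 0) (v := 1)) c
  have e : ∀ g, Real.exp (1 * logCosh (x + Real.sqrt d * g)) =
      Real.exp x / 2 * Real.exp (Real.sqrt d * g) +
        Real.exp (-x) / 2 * Real.exp (-Real.sqrt d * g) := fun g => by
    rw [one_mul, Real.exp_log (Real.cosh_pos _), Real.cosh_eq, neg_add, ← neg_mul, Real.exp_add,
      Real.exp_add]
    ring
  rw [layer]
  simp only [e]
  rw [integral_add ((integrable_exp_mul_gaussianReal _).const_mul _)
    ((integrable_exp_mul_gaussianReal _).const_mul _), integral_const_mul, integral_const_mul,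
    hmgf, hmgf, neg_sq, Real.sq_sqrt hd, ← add_mul, ← add_div, ← Real.cosh_eq,
    Real.log_mul (Real.cosh_pos x).ne' (Real.exp_pos _).ne', Real.log_exp]
  ring

/-- A larger path gives a smaller compensated recursion. -/
lemma level_compare : ∀ {r : ℕ} {m : Fin r → ℝ}, Exps m → ∀ {σ τ : Fin (r + 1) → ℝ},
    Monotone σ → Monotone τ → (∀ p, τ p ≤ σ p) → ∀ {m₀ : ℝ}, 0 < m₀ → m₀ ≤ top m → ∀ x : ℝ,
    layer m₀ (σ 0 - τ 0) (level m σ logCosh 0) x - σ (Fin.last r) / 2 ≤
      level m τ logCosh 0 x - τ (Fin.last r) / 2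
  | 0, m, _, σ, τ, _, _, hle, m₀, h0, h1, x => by
    have := layer_logCosh h0 h1 (sub_nonneg.2 (hle 0)) x
    show layer m₀ (σ 0 - τ 0) logCosh x - σ 0 / 2 ≤ logCosh x - τ 0 / 2
    linarith
  | r + 1, m, hm, σ, τ, hσ, hτ, hle, m₀, h0, h1, x => by
    set u := m 0
    have hu : 0 < u := hm.pos 0
    have hu1 : u ≤ 1 := (hm.lt_one 0).le
    set σ' := Fin.tail σ
    set τ' := Fin.tail τ
    obtain ⟨A₁, hS⟩ := Grow.level (m := Fin.tail m) (fun i => hm.pos _) σ' grow_logCosh'
    obtain ⟨A₂, hT⟩ := Grow.level (m := Fin.tail m) (fun i => hm.pos _) τ' grow_logCosh'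
    set Fs := level (Fin.tail m) σ' logCosh 0
    set Ft := level (Fin.tail m) τ' logCosh 0
    have hd : 0 ≤ σ 1 - τ 1 := sub_nonneg.2 (hle 1)
    have hd0 : 0 ≤ σ 0 - τ 0 := sub_nonneg.2 (hle 0)
    have ht : 0 ≤ τ 1 - τ 0 := sub_nonneg.2 (hτ (Fin.zero_le _))
    have hs : 0 ≤ σ 1 - σ 0 := sub_nonneg.2 (hσ (Fin.zero_le _))
    set c := σ (Fin.last (r + 1)) / 2 - τ (Fin.last (r + 1)) / 2
    have ih : ∀ y, layer u (σ 1 - τ 1) Fs y ≤ Ft y + c := fun y => by
      have := level_compare hm.tail (σ := σ') (τ := τ')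
        (fun i j h => hσ (Fin.succ_le_succ_iff.2 h)) (fun i j h => hτ (Fin.succ_le_succ_iff.2 h))
        (fun p => hle _) hu hm.lt_top.le y
      simp only [σ', τ', Fin.tail, Fin.succ_zero_eq_one, Fin.succ_last] at this
      simp only [c, Fs, Ft, σ', τ']
      linarith
    show layer m₀ (σ 0 - τ 0) (layer u (σ 1 - σ 0) Fs) x - _ ≤ layer u (τ 1 - τ 0) Ft x - _
    have k1 := layer_mono_exp (hS.layer hu (σ 1 - σ 0)) h0 h1 (σ 0 - τ 0) x
    have k2 := layer_le_add (hS.layer hu (σ 1 - τ 1)) hT ih hu (τ 1 - τ 0) x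
    rw [layer_semigroup hS hu hu1 ht hd, show τ 1 - τ 0 + (σ 1 - τ 1) = σ 1 - τ 0 by ring] at k2
    have k3 : layer u (σ 0 - τ 0) (layer u (σ 1 - σ 0) Fs) x = layer u (σ 1 - τ 0) Fs x := by
      rw [layer_semigroup hS hu hu1 hd0 hs, show σ 0 - τ 0 + (σ 1 - σ 0) = σ 1 - τ 0 by ring]
    simp only [c] at k2
    change layer m₀ _ _ x ≤ layer u _ _ x at k1
    linarith

/-- Steps preserve midpoint convexity. -/
lemma layer_midconvex (hF : Grow A F) (hc : ∀ y s, 2 * F y ≤ F (y + s) + F (y - s)) {m : ℝ}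
    (hm : 0 < m) (δ x s : ℝ) :
    2 * layer m δ F x ≤ layer m δ F (x + s) + layer m δ F (x - s) := by
  have hp : ∀ y, 0 < ∫ g, Real.exp (m * F (y + Real.sqrt δ * g)) ∂gaussianReal 0 1 :=
    fun y => zero_lt_one.trans_le (hF.one_le hm.le y _)
  set a := ∫ g, Real.exp (m * F (x + Real.sqrt δ * g)) ∂gaussianReal 0 1 with ha_def
  set b := ∫ g, Real.exp (m * F (x + s + Real.sqrt δ * g)) ∂gaussianReal 0 1 with hb_def
  set c := ∫ g, Real.exp (m * F (x - s + Real.sqrt δ * g)) ∂gaussianReal 0 1 with hc_def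
  set d := (Real.log c - Real.log b) / 2
  have hib := (hF.integrable_exp hm.le (x + s) (Real.sqrt δ)).const_mul (Real.exp d / 2)
  have hic := (hF.integrable_exp hm.le (x - s) (Real.sqrt δ)).const_mul (Real.exp (-d) / 2)
  have h1 : a ≤ Real.exp d / 2 * b + Real.exp (-d) / 2 * c := by
    rw [ha_def, hb_def, hc_def, ← integral_const_mul, ← integral_const_mul, ← integral_add hib hic]
    refine integral_mono (hF.integrable_exp hm.le x _) (hib.add hic) fun g => ?_
    have h2 := mul_le_mul_of_nonneg_left (hc (x + Real.sqrt δ * g) s) hm.le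
    rw [show x + Real.sqrt δ * g + s = x + s + Real.sqrt δ * g by ring,
      show x + Real.sqrt δ * g - s = x - s + Real.sqrt δ * g by ring] at h2
    set u := m * F (x + s + Real.sqrt δ * g) + d
    set v := m * F (x - s + Real.sqrt δ * g) - d
    have h3 : Real.exp (m * F (x + Real.sqrt δ * g)) ≤ Real.exp ((u + v) / 2) :=
      Real.exp_le_exp.2 (by simp only [u, v]; linarith)
    have h4 : Real.exp ((u + v) / 2) ^ 2 = Real.exp u * Real.exp v := by
      rw [sq, ← Real.exp_add, ← Real.exp_add]; ring_nf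
    have h5 : Real.exp ((u + v) / 2) ≤ (Real.exp u + Real.exp v) / 2 := by
      nlinarith [sq_nonneg (Real.exp u - Real.exp v), Real.exp_pos u, Real.exp_pos v]
    refine (h3.trans h5).trans_eq ?_
    simp only [u, v, Real.exp_add, Real.exp_sub, Real.exp_neg]
    ring
  have e1 : Real.exp d * b = Real.exp ((Real.log b + Real.log c) / 2) := by
    rw [show b = Real.exp (Real.log b) from (Real.exp_log (hp _)).symm, ← Real.exp_add, Real.log_exp]
    simp only [d]; ring_nf
  have e2 : Real.exp (-d) * c = Real.exp ((Real.log b + Real.log c) / 2) := by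
    rw [show c = Real.exp (Real.log c) from (Real.exp_log (hp _)).symm, ← Real.exp_add, Real.log_exp]
    simp only [d]; ring_nf
  have h6 := Real.log_le_log (hp x) (show a ≤ Real.exp ((Real.log b + Real.log c) / 2) by linarith)
  rw [Real.log_exp] at h6
  have h7 := mul_le_mul_of_nonneg_left h6 (show 0 ≤ 2 / m by positivity)
  simp only [layer, ← ha_def, ← hb_def, ← hc_def]
  calc 2 * (1 / m * Real.log a) = 2 / m * Real.log a := by ring
    _ ≤ _ := h7
    _ = _ := by ring

lemma level_midconvex : ∀ {r : ℕ} {m : Fin r → ℝ}, (∀ i, 0 < m i) → ∀ (ρ : Fin (r + 1) → ℝ)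
    (x s : ℝ), 2 * level m ρ logCosh 0 x ≤ level m ρ logCosh 0 (x + s) + level m ρ logCosh 0 (x - s)
  | 0, _, _, _, x, s => by
    show 2 * logCosh x ≤ logCosh (x + s) + logCosh (x - s)
    simp only [logCosh]
    rw [← Real.log_mul (Real.cosh_pos _).ne' (Real.cosh_pos _).ne',
      show 2 * Real.log (Real.cosh x) = Real.log (Real.cosh x * Real.cosh x) by
        rw [Real.log_mul (Real.cosh_pos _).ne' (Real.cosh_pos _).ne']; ring]
    refine Real.log_le_log (mul_pos (Real.cosh_pos _) (Real.cosh_pos _)) ?_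
    rw [Real.cosh_add, Real.cosh_sub]
    nlinarith [Real.cosh_sq x, Real.cosh_sq s, sq_nonneg (Real.sinh s), sq_nonneg (Real.sinh x)]
  | r + 1, m, hm, ρ, x, s => by
    obtain ⟨A', h'⟩ := Grow.level (m := Fin.tail m) (fun i => hm _) (Fin.tail ρ) grow_logCosh'
    exact layer_midconvex h' (level_midconvex (fun i => hm _) _) (hm 0) _ x s

/-- The root mean of the recursion. -/
lemma spread_zero (F : ℝ → ℝ) (a : ℝ) :
    spread a F 0 = ∫ g, F (Real.sqrt a * g) ∂gaussianReal 0 1 := by
  simp [spread]

/-- Module B2. -/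
theorem siteMono : SiteMonoStmt := by
  intro r m hm ρ ρ' δ hδ hρ hρ0 hρ' hρ'0 hle
  set σ : Fin (r + 1) → ℝ := fun p => ρ p + δ with hσdef
  have hσ : Monotone σ := hρ.add_const δ
  obtain ⟨A₁, hS⟩ := Grow.level hm.pos ρ grow_logCosh'
  obtain ⟨A₂, hT⟩ := Grow.level hm.pos ρ' grow_logCosh'
  set S := level m ρ logCosh 0 with hS_def
  set T := level m ρ' logCosh 0 with hT_def
  have hlev : ∀ {r : ℕ} (m : Fin r → ℝ) (ρ : Fin (r + 1) → ℝ),
      level m (fun p => ρ p + δ) logCosh 0 = level m ρ logCosh 0 := by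
    intro r
    induction r with
    | zero => intro m ρ; rfl
    | succ r ih =>
      intro m ρ
      show layer (m 0) _ (level (Fin.tail m) (fun p => Fin.tail ρ p + δ) logCosh 0) =
        layer (m 0) _ _
      rw [ih, show ρ 1 + δ - (ρ 0 + δ) = ρ 1 - ρ 0 by ring]
  have hbS : ∀ y, |S y| ≤ (A₁ + 1) * Real.exp |y| := fun y => by
    rw [abs_of_nonneg (hS.nonneg y)]
    have h1 := Real.add_one_le_exp |y|
    have h2 := mul_le_mul_of_nonneg_left (Real.one_le_exp (abs_nonneg y)) (grow_nonneg hS)
    linarith [hS.le y]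
  -- the shift increases the recursion
  have hup : spread (ρ 0) S 0 ≤ spread (σ 0) S 0 := by
    obtain ⟨hi, h⟩ := spread_spread hS.meas hbS hρ0 hδ 0
    rw [hσdef, ← h]
    refine integral_mono (integrable_shift hS 0 _) hi fun g => ?_
    set y := (0 : ℝ) + Real.sqrt (ρ 0) * g
    have hi1 := integrable_shift hS y (Real.sqrt δ)
    have hi2 := integrable_shift hS y (-Real.sqrt δ)
    have hflip : ∫ h, S (y + -Real.sqrt δ * h) ∂gaussianReal 0 1 = spread δ S y := by
      unfold spread
      conv_rhs => rw [show gaussianReal 0 1 = (gaussianReal 0 1).map (fun x => -x) by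
        rw [gaussianReal_map_neg, neg_zero]]
      have hm' : Measurable fun h => S (y + Real.sqrt δ * h) := hS.meas.comp (by fun_prop)
      rw [integral_map (φ := fun x : ℝ => -x) measurable_neg.aemeasurable hm'.aestronglyMeasurable]
      simp
    have h2 : ∫ h, 2 * S y ∂gaussianReal 0 1 ≤
        ∫ h, (S (y + Real.sqrt δ * h) + S (y + -Real.sqrt δ * h)) ∂gaussianReal 0 1 :=
      integral_mono (integrable_const _) (hi1.add hi2) fun h => by
        have := level_midconvex hm.pos ρ y (Real.sqrt δ * h)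
        simp only [← hS_def] at this
        rw [neg_mul, ← sub_eq_add_neg]
        exact this
    rw [integral_add hi1 hi2, hflip] at h2
    simp only [integral_const, probReal_univ, smul_eq_mul, one_mul] at h2
    simp only [spread] at h2 ⊢
    linarith
  -- the larger path is smaller
  have hdown : spread (σ 0) S 0 - σ (Fin.last r) / 2 ≤
      spread (ρ' 0) T 0 - ρ' (Fin.last r) / 2 := by
    have hd : 0 ≤ σ 0 - ρ' 0 := sub_nonneg.2 (hle 0)
    obtain ⟨hi, h⟩ := spread_spread hS.meas hbS hρ'0 hd 0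
    rw [add_sub_cancel] at h
    have ht : 0 < top m := hm.top_pos
    have hpt : ∀ y, spread (σ 0 - ρ' 0) S y - σ (Fin.last r) / 2 ≤
        T y - ρ' (Fin.last r) / 2 := fun y => by
      have h1 := spread_le_layer hS ht (σ 0 - ρ' 0) y
      have h2 := level_compare hm hσ hρ' hle ht le_rfl y
      rw [hσdef, hlev] at h2
      simp only [hσdef, ← hS_def, ← hT_def] at h1 h2 ⊢
      linarith
    have h3 := integral_mono (hi.sub (integrable_const (σ (Fin.last r) / 2)))
      ((integrable_shift hT 0 (Real.sqrt (ρ' 0))).sub (integrable_const (ρ' (Fin.last r) / 2)))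
      fun g => hpt _
    simp only [Pi.sub_apply] at h3
    rw [integral_sub hi (integrable_const _), integral_sub (integrable_shift hT 0 _)
      (integrable_const _), h] at h3
    simpa [spread] using h3
  simp only [hσdef] at hdown hup
  simp only [siteValue, ← spread_zero]
  show spread (ρ 0) S 0 - _ - δ ≤ spread (ρ' 0) T 0 - _
  linarith

end Vale.Agent.P166.NW
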