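import Vale.Agent.P157.Parisi.Defs

/-!
The potentials of the negative Wishart model: the quadratic potential and its bounded regularisation.
-/

noncomputable section

open MeasureTheory ProbabilityTheory

namespace Vale.Agent.P166.NW

open Vale.Agent.P157.Parisi

/-- The potential `-θ z² / 2` of one pattern. -/
def quadPot (θ z : ℝ) : ℝ := -(θ * z ^ 2) / 2

/-- The regularised potential `log (ε + (1 - ε) e^{-θ z²/2})`. -/
def epsPot (θ ε z : ℝ) : ℝ := Real.log (ε + (1 - ε) * Real.exp (quadPot θ z))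

/-- The increment of a path. -/
def gap {r : ℕ} (q : Fin (r + 1) → ℝ) (i : Fin r) : ℝ := q i.succ - q i.castSucc

/-- `1 + θ D_p`, with `D_p = 1 - q_r + ∑_{i ≥ p} m_i (q_{i+1} - q_i)`. -/
def denom {r : ℕ} (θ : ℝ) (m : Fin r → ℝ) (q : Fin (r + 1) → ℝ) (p : Fin (r + 1)) : ℝ :=
  1 + θ * (1 - q (Fin.last r) + ∑ i : Fin r, if p.val ≤ i.val then m i * gap q i else 0)

/-- The constant of the quadratic recursion at depth `p`. -/
def quadConst {r : ℕ} (θ : ℝ) (m : Fin r → ℝ) (q : Fin (r + 1) → ℝ) (p : Fin (r + 1)) : ℝ :=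
  -(1 / 2) * (Real.log (denom θ m q (Fin.last r)) + ∑ i : Fin r, if p.val ≤ i.val then
    (Real.log (denom θ m q i.castSucc) - Real.log (denom θ m q i.succ)) / m i else 0)

/-- The pattern value of the quadratic potential in closed form. -/
def quadValue {r : ℕ} (θ : ℝ) (m : Fin r → ℝ) (q : Fin (r + 1) → ℝ) : ℝ :=
  quadConst θ m q 0 - θ * q 0 / (2 * denom θ m q 0)

/-- The conjugate path of the quadratic potential in closed form. -/
def quadSlope {r : ℕ} (θ : ℝ) (m : Fin r → ℝ) (q : Fin (r + 1) → ℝ) (p : Fin (r + 1)) : ℝ :=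
  θ ^ 2 * (q 0 / denom θ m q 0 ^ 2 + ∑ i : Fin r, if i.val < p.val then
    gap q i / (denom θ m q i.castSucc * denom θ m q i.succ) else 0)

end Vale.Agent.P166.NW
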