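import Vale.Agent.P166.NW.Base
import Vale.Agent.P157.Parisi.Main.Energy
import Vale.Agent.P157.Parisi.Cavity.Gauss

/-!
The regularisation changes the pressure uniformly little: the excess of the regularised potential
grows in `|z|` while the weights decrease, so by Chebyshev's inequality its Gibbs mean is at most
its Gaussian mean.
-/

noncomputable section

open MeasureTheory ProbabilityTheory Filter
open scoped BigOperators Topology

namespace Vale.Agent.P166.NW

open Vale.Agent.P157 Vale.Agent.P157.Parisi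

/-- The excess of the regularised potential. -/
def excess (θ ε z : ℝ) : ℝ := epsPot θ ε z - quadPot θ z

variable {θ ε : ℝ}

lemma mix_pos (hε : 0 ≤ ε) (hε1 : ε < 1) (z : ℝ) :
    0 < ε + (1 - ε) * Real.exp (quadPot θ z) :=
  add_pos_of_nonneg_of_pos hε (mul_pos (by linarith) (Real.exp_pos _))

lemma quadPot_nonpos (hθ : 0 ≤ θ) (z : ℝ) : quadPot θ z ≤ 0 := by
  have : 0 ≤ θ * z ^ 2 := by positivity
  unfold quadPot; linarith

lemma epsPot_bounds (hθ : 0 ≤ θ) (hε : 0 ≤ ε) (hε1 : ε < 1) (z : ℝ) :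
    quadPot θ z ≤ epsPot θ ε z ∧ epsPot θ ε z ≤ 0 := by
  have hp := mix_pos (θ := θ) hε hε1 z
  have h1 : Real.exp (quadPot θ z) ≤ 1 := Real.exp_le_one_iff.2 (quadPot_nonpos hθ z)
  refine ⟨(Real.le_log_iff_exp_le hp).2 ?_, Real.log_nonpos hp.le ?_⟩
  · have := mul_le_mul_of_nonneg_left h1 hε
    linarith
  · have := mul_le_mul_of_nonneg_left h1 (show 0 ≤ 1 - ε by linarith)
    linarith

lemma epsPot_anti (hθ : 0 ≤ θ) (hε : 0 ≤ ε) (hε1 : ε < 1) {z z' : ℝ} (h : z ^ 2 ≤ z' ^ 2) :
    epsPot θ ε z' ≤ epsPot θ ε z ∧ excess θ ε z ≤ excess θ ε z' := by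
  have hq : quadPot θ z' ≤ quadPot θ z := by
    have := mul_le_mul_of_nonneg_left h hθ
    unfold quadPot; linarith
  have he : Real.exp (quadPot θ z') ≤ Real.exp (quadPot θ z) := Real.exp_le_exp.2 hq
  refine ⟨Real.log_le_log (mix_pos hε hε1 z') (by
    have := mul_le_mul_of_nonneg_left he (show 0 ≤ 1 - ε by linarith)
    linarith), ?_⟩
  have e : ∀ y, excess θ ε y =
      Real.log (ε * Real.exp (-quadPot θ y) + (1 - ε)) := fun y => by
    rw [excess, epsPot, sub_eq_iff_eq_add]
    nth_rewrite 3 [← Real.log_exp (quadPot θ y)]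
    rw [← Real.log_mul (by positivity) (Real.exp_pos _).ne', add_mul, mul_assoc, ← Real.exp_add,
      neg_add_cancel, Real.exp_zero, mul_one]
  rw [e, e]
  refine Real.log_le_log (add_pos_of_nonneg_of_pos (by positivity) (by linarith)) ?_
  have := mul_le_mul_of_nonneg_left (Real.exp_le_exp.2 (neg_le_neg hq)) hε
  linarith

lemma measurable_epsPot : Measurable (epsPot θ ε) := by
  unfold epsPot quadPot; fun_prop

lemma measurable_excess : Measurable (excess θ ε) :=
  measurable_epsPot.sub (by unfold quadPot; fun_prop)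

lemma excess_bounds (hθ : 0 ≤ θ) (hε : 0 ≤ ε) (hε1 : ε < 1) (z : ℝ) :
    0 ≤ excess θ ε z ∧ excess θ ε z ≤ θ * z ^ 2 / 2 := by
  obtain ⟨h1, h2⟩ := epsPot_bounds hθ hε hε1 z
  unfold excess
  constructor
  · linarith
  · unfold quadPot at *; linarith

lemma integrable_sq_gauss : Integrable (fun z : ℝ => θ * z ^ 2 / 2) (gaussianReal 0 1) :=
  ((memLp_id_gaussianReal 2).integrable_sq.const_mul θ).div_const 2

/-- The Gaussian mean of the excess is eventually small. -/
lemma exists_excess_small (hθ : 0 ≤ θ) {η : ℝ} (hη : 0 < η) :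
    ∃ ε₀ ∈ Set.Ioo (0 : ℝ) 1, ∀ ε : ℝ, 0 < ε → ε ≤ ε₀ →
      ∫ z, excess θ ε z ∂gaussianReal 0 1 ≤ η := by
  have hu : Tendsto (fun n : ℕ => 1 / ((n : ℝ) + 2)) atTop (𝓝 0) :=
    tendsto_const_nhds.div_atTop (tendsto_atTop_add_const_right _ 2 tendsto_natCast_atTop_atTop)
  have h01 : ∀ n : ℕ, 0 < 1 / ((n : ℝ) + 2) ∧ 1 / ((n : ℝ) + 2) < 1 := fun n => by
    have : (0 : ℝ) ≤ n := Nat.cast_nonneg n
    exact ⟨by positivity, by rw [div_lt_one (by positivity)]; linarith⟩
  have hlim : Tendsto (fun n : ℕ => ∫ z, excess θ (1 / ((n : ℝ) + 2)) z ∂gaussianReal 0 1) atTop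
      (𝓝 (∫ _z : ℝ, (0 : ℝ) ∂gaussianReal 0 1)) := by
    refine tendsto_integral_of_dominated_convergence (fun z => θ * z ^ 2 / 2)
      (fun n => measurable_excess.aestronglyMeasurable) integrable_sq_gauss
      (fun n => Eventually.of_forall fun z => ?_) (Eventually.of_forall fun z => ?_)
    · obtain ⟨h1, h2⟩ := excess_bounds hθ (h01 n).1.le (h01 n).2 z
      rwa [Real.norm_eq_abs, abs_of_nonneg h1]
    · have hc : ContinuousAt (fun e : ℝ => excess θ e z) 0 := by
        have : (0 : ℝ) + (1 - 0) * Real.exp (quadPot θ z) ≠ 0 := by simp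
        unfold excess epsPot
        fun_prop (disch := exact this)
      have h0 : excess θ 0 z = 0 := by simp [excess, epsPot]
      simpa [Function.comp_def, h0] using hc.tendsto.comp hu
  rw [integral_zero] at hlim
  obtain ⟨n, hn⟩ := (hlim.eventually (gt_mem_nhds hη)).exists
  refine ⟨_, h01 n, fun ε hε hle => le_trans (integral_mono ?_ ?_ fun z => ?_) hn.le⟩
  · exact integrable_sq_gauss.mono' measurable_excess.aestronglyMeasurable
      (Eventually.of_forall fun z => by
        obtain ⟨h1, h2⟩ := excess_bounds hθ hε.le (hle.trans_lt (h01 n).2) z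
        rwa [Real.norm_eq_abs, abs_of_nonneg h1])
  · exact integrable_sq_gauss.mono' measurable_excess.aestronglyMeasurable
      (Eventually.of_forall fun z => by
        obtain ⟨h1, h2⟩ := excess_bounds hθ (h01 n).1.le (h01 n).2 z
        rwa [Real.norm_eq_abs, abs_of_nonneg h1])
  · refine sub_le_sub_right (Real.log_le_log (mix_pos hε.le (hle.trans_lt (h01 n).2) z) ?_) _
    have h1 : Real.exp (quadPot θ z) ≤ 1 := Real.exp_le_one_iff.2 (quadPot_nonpos hθ z)
    have := mul_le_mul_of_nonneg_left h1 (show 0 ≤ 1 / ((n : ℝ) + 2) - ε by linarith)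
    linarith

/-- Chebyshev's inequality for sums. -/
lemma sum_chebyshev {X : Type} [Fintype X] {p u v : X → ℝ} (hp : ∀ x, 0 ≤ p x)
    (h : ∀ x y, (u x - u y) * (v x - v y) ≤ 0) :
    (∑ x, p x * u x * v x) * ∑ x, p x ≤ (∑ x, p x * u x) * ∑ x, p x * v x := by
  have h0 : ∑ x, ∑ y, p x * p y * ((u x - u y) * (v x - v y)) ≤ 0 :=
    Finset.sum_nonpos fun x _ => Finset.sum_nonpos fun y _ =>
      mul_nonpos_of_nonneg_of_nonpos (mul_nonneg (hp x) (hp y)) (h x y)
  have e : ∑ x, ∑ y, p x * p y * ((u x - u y) * (v x - v y)) =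
      2 * ((∑ x, p x * u x * v x) * ∑ x, p x) -
        2 * ((∑ x, p x * u x) * ∑ x, p x * v x) := by
    have e1 : ∀ x y, p x * p y * ((u x - u y) * (v x - v y)) =
        p x * u x * v x * p y + p x * (p y * u y * v y) - p x * u x * (p y * v y) -
          p x * v x * (p y * u y) := fun x y => by ring
    simp only [e1, Finset.sum_sub_distrib, Finset.sum_add_distrib, ← Finset.mul_sum,
      ← Finset.sum_mul]
    ring
  linarith

lemma isProb_patterns (M N : ℕ) : IsProbabilityMeasure (patterns M N) := by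
  unfold patterns; infer_instance

/-- The log-partition with `M` patterns. -/
def logZ {M N : ℕ} (f : ℝ → ℝ) (g : Fin M → Fin N → ℝ) : ℝ :=
  Real.log ((∑ σ : Cube N, Real.exp (∑ a, f (dot (g a) (unitVec σ)))) / 2 ^ N)

/-- The Gibbs weights of the patterns other than the chosen one. -/
def restW {M N : ℕ} (f : ℝ → ℝ) (y : Fin M → Fin N → ℝ) (σ : Cube N) : ℝ :=
  Real.exp (∑ j, f (dot (y j) (unitVec σ))) /
    ∑ τ : Cube N, Real.exp (∑ j, f (dot (y j) (unitVec τ)))

/-- The mean excess of one pattern under the others. -/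
def restExcess {M N : ℕ} (θ ε : ℝ) (b : Fin (M + 1)) (g : Fin (M + 1) → Fin N → ℝ) : ℝ :=
  ∑ σ, restW (epsPot θ ε) (fun j => g (b.succAbove j)) σ * excess θ ε (dot (g b) (unitVec σ))

lemma meanPressure_logZ {f : ℝ → ℝ} (hf : Measurable f) (α : ℝ) (N : ℕ) :
    meanPressure isingLaw α f N = 1 / N * ∫ g, logZ f g ∂patterns ⌊α * N⌋₊ N := by
  rw [meanPressure, integral_const_mul]
  congr 1
  refine integral_congr_ae (Eventually.of_forall fun g => ?_)
  dsimp only
  rw [Vale.Agent.P157.Parisi.Main.integral_rad_pi _ (by fun_prop), logZ]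
  simp only [dot, unitVec, Finset.sum_div, mul_div_assoc]

lemma logZ_bounds (hθ : 0 ≤ θ) {M N : ℕ} {f : ℝ → ℝ} (h : ∀ z, quadPot θ z ≤ f z ∧ f z ≤ 0)
    (g : Fin M → Fin N → ℝ) :
    |logZ f g| ≤ ∑ a, ∑ σ : Cube N, θ * dot (g a) (unitVec σ) ^ 2 / 2 := by
  set S := ∑ a, ∑ σ : Cube N, θ * dot (g a) (unitVec σ) ^ 2 / 2
  have h0 : ∀ a, ∀ σ : Cube N, 0 ≤ θ * dot (g a) (unitVec σ) ^ 2 / 2 := fun a σ => by positivity
  have hS : 0 ≤ S := Finset.sum_nonneg fun a _ => Finset.sum_nonneg fun σ _ => h0 a σ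
  refine Vale.Agent.P157.Parisi.Main.abs_cubeLog_le fun σ => ?_
  rw [abs_of_nonpos (Finset.sum_nonpos fun a _ => (h _).2), ← Finset.sum_neg_distrib]
  refine Finset.sum_le_sum fun a _ => ?_
  refine le_trans ?_ (Finset.single_le_sum (fun τ _ => h0 a τ) (Finset.mem_univ σ))
  have := (h (dot (g a) (unitVec σ))).1
  unfold quadPot at this
  linarith

lemma integrable_sq_eval (θ : ℝ) {M N : ℕ} (hN : 0 < N) (a : Fin M) (σ : Cube N) :
    Integrable (fun g : Fin M → Fin N → ℝ => θ * dot (g a) (unitVec σ) ^ 2 / 2) (patterns M N) :=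
  (measurePreserving_eval (fun _ : Fin M => gam (Fin N)) a).integrable_comp_of_integrable
    (Cavity.integrable_dot_unit (Vale.Agent.P157.Parisi.Main.sum_unitVec_sq hN σ)
      (integrable_sq_gauss (θ := θ)))

lemma integrable_logZ (hθ : 0 ≤ θ) {M N : ℕ} (hN : 0 < N) {f : ℝ → ℝ} (hf : Measurable f)
    (h : ∀ z, quadPot θ z ≤ f z ∧ f z ≤ 0) : Integrable (logZ (M := M) f) (patterns M N) := by
  refine Integrable.mono' (integrable_finsetSum _ fun a _ => integrable_finsetSum _ fun σ _ =>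
    integrable_sq_eval θ hN a σ) ?_ (Eventually.of_forall fun g => logZ_bounds hθ h g)
  exact (by unfold logZ dot; fun_prop : Measurable (logZ (M := M) (N := N) f)).aestronglyMeasurable

lemma logZ_sub_le (hθ : 0 ≤ θ) (hε : 0 ≤ ε) (hε1 : ε < 1) {M N : ℕ}
    (g : Fin (M + 1) → Fin N → ℝ) :
    logZ (epsPot θ ε) g - logZ (quadPot θ) g ≤ ∑ b, restExcess θ ε b g := by
  set He : Cube N → ℝ := fun σ => ∑ a, epsPot θ ε (dot (g a) (unitVec σ))
  set Hq : Cube N → ℝ := fun σ => ∑ a, quadPot θ (dot (g a) (unitVec σ))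
  set Ze := ∑ σ : Cube N, Real.exp (He σ)
  set Zq := ∑ σ : Cube N, Real.exp (Hq σ)
  have hZe : 0 < Ze := Finset.sum_pos (fun σ _ => Real.exp_pos _) Finset.univ_nonempty
  have hZq : 0 < Zq := Finset.sum_pos (fun σ _ => Real.exp_pos _) Finset.univ_nonempty
  set m := ∑ σ, Real.exp (He σ) / Ze * (He σ - Hq σ)
  have hj : logZ (epsPot θ ε) g - logZ (quadPot θ) g ≤ m := by
    rw [logZ, logZ, Real.log_div hZe.ne' (by positivity), Real.log_div hZq.ne' (by positivity),
      sub_sub_sub_cancel_right, ← Real.log_div hZe.ne' hZq.ne',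
      Real.log_le_iff_le_exp (div_pos hZe hZq), div_le_iff₀ hZq]
    have hsum : ∑ σ, Real.exp (He σ) / Ze = 1 := by
      rw [← Finset.sum_div, div_self hZe.ne']
    calc Ze = ∑ σ, Real.exp (He σ) * (m + 1 - (He σ - Hq σ)) := by
          simp only [mul_sub, Finset.sum_sub_distrib, ← Finset.sum_mul]
          have : Ze * m = ∑ σ, Real.exp (He σ) * (He σ - Hq σ) := by
            rw [Finset.mul_sum]
            exact Finset.sum_congr rfl fun σ _ => by field_simp
          simp only [mul_sub, Finset.sum_sub_distrib] at this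
          linarith
      _ ≤ ∑ σ, Real.exp (He σ) * Real.exp (m - (He σ - Hq σ)) :=
          Finset.sum_le_sum fun σ _ => mul_le_mul_of_nonneg_left
            (le_of_eq_of_le (by ring) (Real.add_one_le_exp _)) (Real.exp_pos _).le
      _ = Real.exp m * Zq := by
          rw [Finset.mul_sum]
          refine Finset.sum_congr rfl fun σ _ => ?_
          rw [← Real.exp_add, ← Real.exp_add]
          ring_nf
  refine hj.trans ?_
  have e : m = ∑ b, ∑ σ, Real.exp (He σ) / Ze * excess θ ε (dot (g b) (unitVec σ)) := by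
    rw [Finset.sum_comm]
    refine Finset.sum_congr rfl fun σ _ => ?_
    rw [← Finset.mul_sum]
    simp only [He, Hq, excess, Finset.sum_sub_distrib]
  rw [e]
  refine Finset.sum_le_sum fun b _ => ?_
  set p : Cube N → ℝ := fun σ =>
    Real.exp (∑ j, epsPot θ ε (dot (g (b.succAbove j)) (unitVec σ)))
  set u : Cube N → ℝ := fun σ => Real.exp (epsPot θ ε (dot (g b) (unitVec σ)))
  have hsplit : ∀ σ, Real.exp (He σ) = p σ * u σ := fun σ => by
    simp only [He, p, u, ← Real.exp_add]
    rw [Fin.sum_univ_succAbove _ b, add_comm]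
  have hZ : Ze = ∑ σ, p σ * u σ := Finset.sum_congr rfl fun σ _ => hsplit σ
  have hP : 0 < ∑ σ, p σ := Finset.sum_pos (fun σ _ => Real.exp_pos _) Finset.univ_nonempty
  have hc := sum_chebyshev (p := p) (u := u) (v := fun σ => excess θ ε (dot (g b) (unitVec σ)))
    (fun σ => (Real.exp_pos _).le) fun σ τ => by
      rcases le_total (dot (g b) (unitVec σ) ^ 2) (dot (g b) (unitVec τ) ^ 2) with h | h
      · obtain ⟨h1, h2⟩ := epsPot_anti hθ hε hε1 h
        exact mul_nonpos_of_nonneg_of_nonpos (sub_nonneg.2 (Real.exp_le_exp.2 h1))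
          (sub_nonpos.2 h2)
      · obtain ⟨h1, h2⟩ := epsPot_anti hθ hε hε1 h
        exact mul_nonpos_of_nonpos_of_nonneg (sub_nonpos.2 (Real.exp_le_exp.2 h1))
          (sub_nonneg.2 h2)
  simp only [restExcess, restW, hsplit, div_mul_eq_mul_div, ← Finset.sum_div]
  rw [div_le_div_iff₀ hZe hP, hZ, mul_comm (∑ σ, p σ * excess θ ε _)]
  exact hc

lemma integral_restExcess (hθ : 0 ≤ θ) (hε : 0 ≤ ε) (hε1 : ε < 1) {M N : ℕ} (hN : 0 < N)
    (b : Fin (M + 1)) :
    Integrable (restExcess (N := N) θ ε b) (patterns (M + 1) N) ∧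
      ∫ g, restExcess θ ε b g ∂patterns (M + 1) N = ∫ z, excess θ ε z ∂gaussianReal 0 1 := by
  have := isProb_patterns M N
  have hR : ∀ σ, Measurable fun y : Fin M → Fin N → ℝ => restW (epsPot θ ε) y σ := fun σ => by
    have := measurable_epsPot (θ := θ) (ε := ε)
    unfold restW dot; fun_prop
  have hR0 : ∀ y : Fin M → Fin N → ℝ, ∀ σ, 0 ≤ restW (epsPot θ ε) y σ := fun y σ =>
    div_nonneg (Real.exp_pos _).le (Finset.sum_nonneg fun τ _ => (Real.exp_pos _).le)
  have hR1 : ∀ y : Fin M → Fin N → ℝ, ∑ σ, restW (epsPot θ ε) y σ = 1 := fun y => by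
    simp only [restW, ← Finset.sum_div]
    exact div_self (Finset.sum_pos (fun τ _ => Real.exp_pos _) Finset.univ_nonempty).ne'
  have hRle : ∀ y : Fin M → Fin N → ℝ, ∀ σ, |restW (epsPot θ ε) y σ| ≤ 1 := fun y σ => by
    rw [abs_of_nonneg (hR0 y σ), ← hR1 y]
    exact Finset.single_le_sum (fun τ _ => hR0 y τ) (Finset.mem_univ σ)
  have hei : Integrable (excess θ ε) (gaussianReal 0 1) :=
    integrable_sq_gauss.mono' measurable_excess.aestronglyMeasurable
      (Eventually.of_forall fun z => by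
        obtain ⟨h1, h2⟩ := excess_bounds hθ hε hε1 z
        rwa [Real.norm_eq_abs, abs_of_nonneg h1])
  have hxi : ∀ σ : Cube N, Integrable (fun x => excess θ ε (dot x (unitVec σ))) (gam (Fin N)) :=
    fun σ => Cavity.integrable_dot_unit (Vale.Agent.P157.Parisi.Main.sum_unitVec_sq hN σ) hei
  have hyi : ∀ σ, Integrable (fun y => restW (epsPot θ ε) y σ) (patterns M N) := fun σ =>
    Integrable.of_bound (hR σ).aestronglyMeasurable 1 (Eventually.of_forall fun y => hRle y σ)
  have hmp : MeasurePreserving (MeasurableEquiv.piFinSuccAbove (fun _ => Fin N → ℝ) b)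
      (patterns (M + 1) N) ((gam (Fin N)).prod (patterns M N)) :=
    measurePreserving_piFinSuccAbove (fun _ => gam (Fin N)) b
  set G : (Fin N → ℝ) × (Fin M → Fin N → ℝ) → ℝ := fun p =>
    ∑ σ, excess θ ε (dot p.1 (unitVec σ)) * restW (epsPot θ ε) p.2 σ
  have hi : ∀ σ, Integrable (fun p : (Fin N → ℝ) × (Fin M → Fin N → ℝ) =>
      excess θ ε (dot p.1 (unitVec σ)) * restW (epsPot θ ε) p.2 σ)
      ((gam (Fin N)).prod (patterns M N)) := fun σ => (hxi σ).mul_prod (hyi σ)
  have hG : Integrable G ((gam (Fin N)).prod (patterns M N)) := integrable_finsetSum _ fun σ _ => hi σ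
  have e : restExcess (N := N) θ ε b =
      fun g => G (MeasurableEquiv.piFinSuccAbove (fun _ => Fin N → ℝ) b g) := by
    funext g
    simp only [restExcess, G]
    exact Finset.sum_congr rfl fun σ _ => mul_comm _ _
  refine ⟨e ▸ hmp.integrable_comp_of_integrable hG, ?_⟩
  rw [e, hmp.integral_comp' G, integral_finsetSum _ fun σ _ => hi σ]
  have hσ : ∀ σ, ∫ p, excess θ ε (dot p.1 (unitVec σ)) * restW (epsPot θ ε) p.2 σ
      ∂(gam (Fin N)).prod (patterns M N) =
      (∫ z, excess θ ε z ∂gaussianReal 0 1) * ∫ y, restW (epsPot θ ε) y σ ∂patterns M N := fun σ => by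
    rw [integral_prod_mul (fun x => excess θ ε (dot x (unitVec σ)))
      (fun y => restW (epsPot θ ε) y σ),
      Cavity.integral_dot_unit (Vale.Agent.P157.Parisi.Main.sum_unitVec_sq hN σ) measurable_excess]
  simp only [hσ, ← Finset.mul_sum, ← integral_finsetSum _ fun σ _ => hyi σ, hR1, integral_const]
  simp

/-- Module B3. -/
theorem pressureGap : PressureGapStmt := by
  intro θ hθ η hη
  obtain ⟨ε₀, hε₀, hsmall⟩ := exists_excess_small hθ.le hη
  refine ⟨ε₀, hε₀, fun ε hε hle α hα N hN => ?_⟩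
  have hε1 : ε < 1 := hle.trans_lt hε₀.2
  have hNr : (0 : ℝ) < N := by exact_mod_cast hN
  have hqm : Measurable (quadPot θ) := by unfold quadPot; fun_prop
  have hb := epsPot_bounds hθ.le hε.le hε1
  have hbq : ∀ z, quadPot θ z ≤ quadPot θ z ∧ quadPot θ z ≤ 0 :=
    fun z => ⟨le_rfl, quadPot_nonpos hθ.le z⟩
  rw [meanPressure_logZ measurable_epsPot, meanPressure_logZ hqm]
  have hM : (⌊α * N⌋₊ : ℝ) ≤ α * N := Nat.floor_le (by positivity)
  revert hM
  generalize ⌊α * N⌋₊ = M
  intro hM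
  have hie := integrable_logZ (M := M) hθ.le hN measurable_epsPot hb
  have hiq := integrable_logZ (M := M) hθ.le hN hqm hbq
  refine ⟨mul_le_mul_of_nonneg_left (integral_mono hiq hie fun g => ?_) (by positivity), ?_⟩
  · exact Real.log_le_log (div_pos (Finset.sum_pos (fun σ _ => Real.exp_pos _)
      Finset.univ_nonempty) (by positivity)) (div_le_div_of_nonneg_right (Finset.sum_le_sum
      fun σ _ => Real.exp_le_exp.2 (Finset.sum_le_sum fun a _ => (hb _).1)) (by positivity))
  · have hdiff : ∫ g, (logZ (epsPot θ ε) g - logZ (quadPot θ) g) ∂patterns M N ≤ M * η := by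
      cases M with
      | zero => simp [logZ]
      | succ M =>
        refine (integral_mono (hie.sub hiq) (integrable_finsetSum _ fun b _ =>
          (integral_restExcess hθ.le hε.le hε1 hN b).1)
          (logZ_sub_le hθ.le hε.le hε1)).trans ?_
        rw [integral_finsetSum _ fun b _ => (integral_restExcess hθ.le hε.le hε1 hN b).1]
        simp only [(integral_restExcess hθ.le hε.le hε1 hN _).2, Finset.sum_const, Finset.card_univ,
          Fintype.card_fin, nsmul_eq_mul]
        exact mul_le_mul_of_nonneg_left (hsmall ε hε hle) (Nat.cast_nonneg _)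
    rw [integral_sub hie hiq] at hdiff
    have h2 := hdiff.trans (mul_le_mul_of_nonneg_right hM hη.le)
    have h3 := mul_le_mul_of_nonneg_left h2 (show (0 : ℝ) ≤ 1 / N by positivity)
    rw [show 1 / (N : ℝ) * (α * N * η) = α * η by field_simp, mul_sub] at h3
    linarith

end Vale.Agent.P166.NW
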