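import Vale.Agent.P166.NW.Base

/-!
Weights carried by a cascade are a state: a weak limit of the finite cascade states on the
simplex of weights.
-/

noncomputable section

open MeasureTheory ProbabilityTheory Filter BoundedContinuousFunction
open scoped BigOperators NNReal ENNReal Topology

namespace Vale.Agent.P166.NW

open Vale.Agent.P157 Vale.Agent.P157.Parisi Vale.Agent.P157.Parisi.Up
open Vale.Agent.P168 (Shape shapeMarks CascTree cascLaw cascSum cascMean genNested cascFilter)
open Vale.Agent.P168.Cascade

variable {r N : ℕ} {β : Type} [MeasurableSpace β]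

/-- Tilted replica moments depend measurably on a parameter. -/
lemma measurable_tiltMoment (ν : Measure β) [IsProbabilityMeasure ν] (m : Fin r → ℝ) {D : Type}
    [MeasurableSpace D] {k : ℕ} {Y : D → (Fin r → β) → ℝ} {g : Fin k → D → (Fin r → β) → ℝ}
    (hY : Measurable (Function.uncurry Y)) (hg : ∀ a, Measurable (Function.uncurry (g a))) :
    Measurable fun d => tiltMoment ν m (Y d) fun a => g a d := by
  refine Finset.measurable_sum _ fun v _ => Measurable.const_mul ?_ _
  have hmk : ∀ a, Measurable fun z : D × (Fin r → Fin k → β) => (z.1, shapeMarks v z.2 a) :=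
    fun a => measurable_fst.prodMk ((measurable_shapeMarks v a).comp measurable_snd)
  have hc : ∀ i a, Measurable fun z : D × (Fin r → Fin k → β) =>
      cond ν m (Y z.1) i (shapeMarks v z.2 a) := fun i a =>
    measurable_cond ν m i (Y := fun z : D × (Fin r → Fin k → β) => Y z.1)
      (hY.comp ((measurable_fst.comp measurable_fst).prodMk measurable_snd))
      ((measurable_shapeMarks v a).comp measurable_snd)
  have hW : Measurable fun z : D × (Fin r → Fin k → β) => logW ν m (Y z.1) v z.2 :=
    (Finset.measurable_sum _ fun i _ => Finset.measurable_sum _ fun a _ =>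
      ((hc _ a).log.sub (hc _ a).log).const_mul _).sub
    (Finset.measurable_sum _ fun a _ => (hY.comp (hmk a)).log)
  have hI : Measurable fun z : D × (Fin r → Fin k → β) =>
      Real.exp (logW ν m (Y z.1) v z.2) * ∏ a, g a z.1 (shapeMarks v z.2 a) :=
    hW.exp.mul (Finset.measurable_prod _ fun a _ => (hg a).comp (hmk a))
  exact (hI.stronglyMeasurable.integral_prod_right' (ν := tableLaw ν r k)).measurable

/-- The vector of the weights of a finite cascade. -/
def cascVec (m : Fin r → ℝ) (n : Fin r → ℕ) (w : Cube N → (Fin r → β) → ℝ) (t : CascTree β r n) :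
    Cube N → ℝ :=
  fun σ => ratio m n (sumW w) (w σ) t

omit [MeasurableSpace β] in
lemma cascSum_sum (m : Fin r → ℝ) (n : Fin r → ℕ) (w : Cube N → (Fin r → β) → ℝ)
    (t : CascTree β r n) : cascSum r m n (sumW w) t = ∑ σ, cascSum r m n (w σ) t := by
  simp only [cascSum_eq_sum_leaves, sumW, Finset.mul_sum]
  exact Finset.sum_comm

lemma cascVec_mem {C : ℝ} {w : Cube N → (Fin r → β) → ℝ} (hw : WBdd C w) (m : Fin r → ℝ)
    {n : Fin r → ℕ} (hn : ∀ i, 0 < n i) {t : CascTree β r n} (ht : GoodTree r n t) :
    cascVec m n w t ∈ stdSimplex ℝ (Cube N) := by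
  have hpos : 0 < cascSum r m n (sumW w) t := (cascSum_pos (bdd_sum hw) m hn ht).2
  refine ⟨fun σ => div_nonneg ?_ hpos.le, ?_⟩
  · rw [cascSum_eq_sum_leaves]
    exact Finset.sum_nonneg fun f _ =>
      mul_nonneg (leafW_pos r m n t f ht).le ((hw σ).gt_zero _).le
  · simp only [cascVec, ratio]
    rw [← Finset.sum_div, ← cascSum_sum, div_self hpos.ne']

/-- The projection onto the simplex of weights. -/
def toSimplex (x : Cube N → ℝ) : stdSimplex ℝ (Cube N) :=
  open Classical in if h : x ∈ stdSimplex ℝ (Cube N) then ⟨x, h⟩ else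
    ⟨Pi.single default 1, single_mem_stdSimplex ℝ _⟩

lemma measurable_toSimplex : Measurable (toSimplex (N := N)) := by
  classical
  exact Measurable.dite (s := stdSimplex ℝ (Cube N)) (f := fun x => x)
    (g := fun _ => ⟨Pi.single default 1, single_mem_stdSimplex ℝ _⟩) measurable_id measurable_const
    (isClosed_stdSimplex ℝ _).measurableSet

/-- The mean logarithm of the gain of a fresh pattern at given weights. -/
def gainAt (f : ℝ → ℝ) (x : stdSimplex ℝ (Cube N)) : ℝ :=
  meanLog x.1 f (unitVec (N := N))

lemma continuous_gainAt {f : ℝ → ℝ} {A : ℝ} (hs : Smooth f A) :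
    Continuous (gainAt (N := N) f) := by
  refine continuous_of_dominated (bound := fun _ => A)
    (fun x => (measurable_logSum hs.d0.continuous.measurable _).aestronglyMeasurable)
    (fun x => Eventually.of_forall fun g => ?_) (integrable_const _)
    (Eventually.of_forall fun g => ?_)
  · exact abs_log_sum_exp_le x.2.1 x.2.2 fun σ => hs.b0 _
  · refine Continuous.log (continuous_finsetSum _ fun σ _ => ?_) fun x =>
      ((Real.exp_pos _).trans_le (sum_exp_mem x.2.1 x.2.2 fun σ => hs.b0 _).1).ne'
    exact ((continuous_apply σ).comp continuous_subtype_val).mul continuous_const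

lemma abs_gainAt_le {f : ℝ → ℝ} {A : ℝ} (hs : Smooth f A) (x : stdSimplex ℝ (Cube N)) :
    |gainAt f x| ≤ A := by
  have h := norm_integral_le_of_norm_le_const (μ := gam (Fin N))
    (f := logSum x.1 f (unitVec (N := N))) (C := A)
    (Eventually.of_forall fun g => abs_log_sum_exp_le x.2.1 x.2.2 fun σ => hs.b0 _)
  simpa [gainAt, meanLog] using h

/-- The replica moments of the finite cascades. -/
lemma tendsto_cascVec_prod (ν : Measure β) [IsProbabilityMeasure ν] {m : Fin r → ℝ} (hm : Exps m)
    {C : ℝ} {w : Cube N → (Fin r → β) → ℝ} (hw : WBdd C w) {k : ℕ} (σ : Fin (k + 1) → Cube N) :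
    Tendsto (fun n => ∫ t, ∏ l, cascVec m n w t (σ l) ∂cascLaw ν r n) (cascFilter r)
      (𝓝 (tiltMoment ν m (sumW w) fun l => w (σ l))) := by
  set K := max 1 (Fintype.card (Cube N) * C)
  have hK : (1 : ℝ) ≤ K := le_max_left _ _
  have hK0 : (0 : ℝ) < K := by linarith
  have hC : ∀ l η, |K⁻¹ * w (σ l) η| ≤ 1 := fun l η => by
    rw [abs_mul, abs_inv, abs_of_pos hK0, abs_of_pos ((hw _).gt_zero η), inv_mul_le_one₀ hK0]
    refine ((hw _).mem η).2.trans (le_trans ?_ (le_max_right _ _))
    exact le_mul_of_one_le_left (hw default).pos.le (by exact_mod_cast Fintype.card_pos)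
  have h := integral_prod_ratio_tendsto ν k hm hK (bdd_mono (le_max_right _ _) (bdd_sum hw))
    (g := fun l η => K⁻¹ * w (σ l) η) (fun l => (hw _).meas.const_mul _) hC
  have e1 : ∀ n (t : CascTree β r n), ∏ l, cascVec m n w t (σ l) =
      K ^ (k + 1) * ∏ l, ratio m n (sumW w) (fun η => K⁻¹ * w (σ l) η) t := by
    intro n t
    simp only [cascVec, ratio, cascSum_smul, mul_div_assoc, Finset.prod_mul_distrib,
      Finset.prod_const, Finset.card_univ, Fintype.card_fin]
    rw [← mul_assoc, ← mul_pow, mul_inv_cancel₀ hK0.ne', one_pow, one_mul]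
  have e2 : (tiltMoment ν m (sumW w) fun l => w (σ l)) =
      K ^ (k + 1) * tiltMoment ν m (sumW w) (fun l η => K⁻¹ * w (σ l) η) := by
    simp only [tiltMoment, Finset.mul_sum, Finset.prod_mul_distrib, Finset.prod_const,
      Finset.card_univ, Fintype.card_fin]
    refine Finset.sum_congr rfl fun v _ => ?_
    simp only [mul_left_comm _ (K⁻¹ ^ (k + 1)), integral_const_mul]
    rw [← mul_assoc, ← mul_pow, inv_mul_cancel₀ hK0.ne', one_pow, one_mul]
  rw [e2]
  refine (h.const_mul (K ^ (k + 1))).congr fun n => ?_
  rw [← integral_const_mul]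
  exact integral_congr_ae (Eventually.of_forall fun t => (e1 n t).symm)

/-- The gain of one fresh pattern at the finite cascades. -/
lemma tendsto_cascVec_gain (ν : Measure β) [IsProbabilityMeasure ν] {m : Fin r → ℝ} (hm : Exps m)
    {C : ℝ} {w : Cube N → (Fin r → β) → ℝ} (hw : WBdd C w) {f : ℝ → ℝ} {A : ℝ} (hs : Smooth f A) :
    Tendsto (fun n => ∫ t, gainAt f (toSimplex (cascVec m n w t)) ∂cascLaw ν r n) (cascFilter r)
      (𝓝 (patInc ν m f w)) := by
  set Y : (Fin N → ℝ) → (Fin r → β) → ℝ := fun g η => ∑ σ, w σ η * patU f g σ with hYdef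
  have hYm : Measurable (Function.uncurry Y) :=
    Finset.measurable_sum _ fun σ _ => (measW_patU hs (measW_const hw (P := Unit))) σ |>.comp
      (f := fun z : (Fin N → ℝ) × (Fin r → β) => (((), z.1), z.2))
      ((measurable_const.prodMk measurable_fst).prodMk measurable_snd)
  have hYb : ∀ g, Bdd (Fintype.card (Cube N) * (C * Real.exp A)) (Y g) := fun g =>
    bdd_sum (wbdd_patU hs hw g)
  have hS := bdd_sum hw
  have lim1 := tendsto_integral_logMean (ν := ν) (gam (Fin N)) hm hYm hYb
  have lim2 := cascadeLog β ν r m hm.pos hm.lt_one hm.mono (sumW w) _ hS.pos hS.meas hS.mem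
  have hlim : patInc ν m f w =
      (∫ g, Real.log (genNested ν m (Y g)) ∂gam (Fin N)) - Real.log (genNested ν m (sumW w)) := by
    have hi : Integrable (fun g => Up.Phi ν m fun σ η => w σ η * patU f g σ) (gam (Fin N)) := by
      refine Integrable.of_bound ?_ |Real.log (Fintype.card (Cube N) * (C * Real.exp A))|
        (Eventually.of_forall fun g => abs_Phi_le' ν hm (wbdd_patU hs hw g))
      exact ((Vale.Agent.P168.Upper.measurable_genNested ν m Y hYm).log).aestronglyMeasurable
    rw [patInc, integral_sub hi (integrable_const _)]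
    simp only [integral_const, probReal_univ, one_smul, Y, Up.Phi]
    rfl
  rw [hlim]
  refine (lim1.sub lim2).congr' ?_
  filter_upwards [eventually_pos r] with n hn
  have hm1 : Measurable fun z : (Fin N → ℝ) × CascTree β r n =>
      Real.log (cascMean m n (Y z.1) z.2) :=
    ((measurable_cascSum_param m n hYm).div (measurable_cascSum_param m n
      (Y := fun _ _ => (1 : ℝ)) measurable_const)).log
  have hi1 : Integrable (Function.uncurry fun g t => Real.log (cascMean m n (Y g) t))
      ((gam (Fin N)).prod (cascLaw ν r n)) := by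
    refine Integrable.of_bound hm1.aestronglyMeasurable
      |Real.log (Fintype.card (Cube N) * (C * Real.exp A))| ?_
    filter_upwards [Measure.quasiMeasurePreserving_snd.ae (ae_good ν r n)] with z hz
    exact abs_log_cascMean_le (hYb z.1) m n hz
  have hi2 : Integrable (fun t => Real.log (cascMean m n (sumW w) t)) (cascLaw ν r n) := by
    refine Integrable.of_bound ((measurable_cascSum m n hS.meas).div
      (measurable_cascSum m n measurable_const)).log.aestronglyMeasurable
      |Real.log (Fintype.card (Cube N) * C)| ?_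
    filter_upwards [ae_good ν r n] with t ht
    exact abs_log_cascMean_le hS m n ht
  have hi3 : Integrable (fun t => ∫ g, Real.log (cascMean m n (Y g) t) ∂gam (Fin N))
      (cascLaw ν r n) := hi1.integral_prod_right
  rw [integral_integral_swap hi1, ← integral_sub hi3 hi2]
  refine integral_congr_ae ?_
  filter_upwards [ae_good ν r n, hi1.prod_left_ae] with t ht hit
  have hmem := cascVec_mem hw m hn ht
  rw [toSimplex, dif_pos hmem]
  have h1 := cascSum_one_pos m hn ht
  have hsum : 0 < cascSum r m n (sumW w) t := (cascSum_pos hS m hn ht).2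
  have e : ∀ g, Real.log (∑ σ, cascVec m n w t σ * Real.exp (f (dot g (unitVec σ)))) =
      Real.log (cascMean m n (Y g) t) - Real.log (cascMean m n (sumW w) t) := by
    intro g
    have hY0 : 0 < cascSum r m n (Y g) t := (cascSum_pos (hYb g) m hn ht).2
    have e0 : ∑ σ, cascVec m n w t σ * Real.exp (f (dot g (unitVec σ))) =
        cascSum r m n (Y g) t / cascSum r m n (sumW w) t := by
      rw [show Y g = sumW (fun σ η => w σ η * patU f g σ) from rfl, cascSum_sum, Finset.sum_div]
      refine Finset.sum_congr rfl fun σ _ => ?_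
      rw [cascVec, ratio, show (fun η => w σ η * patU f g σ) = fun η => patU f g σ * w σ η from
        funext fun η => mul_comm _ _, cascSum_smul, patU, div_mul_eq_mul_div, mul_comm]
    rw [e0, cascMean, cascMean, Real.log_div hY0.ne' hsum.ne', Real.log_div hY0.ne' h1.ne',
      Real.log_div hsum.ne' h1.ne']
    ring
  simp only [gainAt, meanLog, logSum, e]
  have hit' : Integrable (fun g => Real.log (cascMean m n (Y g) t)) (gam (Fin N)) := hit
  rw [integral_sub hit' (integrable_const _)]
  simp

/-- Module D. -/
theorem cascState : CascStateStmt := by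
  intro N hN r m hm β _ ν _ E _ law _ w hw hb
  choose C hC using hb
  have : CompactSpace (stdSimplex ℝ (Cube N)) :=
    isCompact_iff_compactSpace.1 (isCompact_stdSimplex ℝ _)
  have := Vale.Agent.P168.Upper.cascFilter_neBot r
  have hwu : ∀ σ, Measurable (Function.uncurry fun e => w e σ) := hw
  have hsu : Measurable (Function.uncurry fun e => sumW (w e)) :=
    Finset.measurable_sum _ fun σ _ => hw σ
  let V : (n : Fin r → ℕ) → E × CascTree β r n → stdSimplex ℝ (Cube N) :=
    fun n z => toSimplex (cascVec m n (w z.1) z.2)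
  have hV : ∀ n, Measurable (V n) := fun n => measurable_toSimplex.comp (measurable_pi_lambda _
    fun σ => (measurable_cascSum_param m n (hwu σ)).div (measurable_cascSum_param m n hsu))
  let P : (Fin r → ℕ) → ProbabilityMeasure (stdSimplex ℝ (Cube N)) := fun n =>
    ⟨(law.prod (cascLaw ν r n)).map (V n), Measure.isProbabilityMeasure_map (hV n).aemeasurable⟩
  obtain ⟨μ, hμ⟩ := exists_clusterPt_of_compactSpace (Filter.map P (cascFilter r))
  have key : ∀ (φ : stdSimplex ℝ (Cube N) → ℝ) (B : ℝ) (L : E → ℝ), Continuous φ →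
      (∀ x, |φ x| ≤ B) → Measurable L →
      (∀ e, Tendsto (fun n => ∫ t, φ (V n (e, t)) ∂cascLaw ν r n) (cascFilter r) (𝓝 (L e))) →
      ∫ x, φ x ∂(μ : Measure (stdSimplex ℝ (Cube N))) = ∫ e, L e ∂law := by
    intro φ B L hφ hB hL hlim
    have hsec : ∀ n, Measurable fun e => ∫ t, φ (V n (e, t)) ∂cascLaw ν r n := fun n =>
      ((hφ.measurable.comp (hV n)).stronglyMeasurable.integral_prod_right').measurable
    have hbd : ∀ n e, |∫ t, φ (V n (e, t)) ∂cascLaw ν r n| ≤ B := fun n e => by
      simpa using norm_integral_le_of_norm_le_const (μ := cascLaw ν r n)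
        (f := fun t => φ (V n (e, t))) (Eventually.of_forall fun t => hB _)
    have hT : Tendsto (fun n => ∫ x, φ x ∂(P n : Measure (stdSimplex ℝ (Cube N)))) (cascFilter r)
        (𝓝 (∫ e, L e ∂law)) := by
      refine (Vale.Agent.P168.Upper.tendsto_integral_cascFilter law _ L B hsec hL hbd
        (fun e => le_of_tendsto' (hlim e).abs fun n => hbd n e) hlim).congr fun n => ?_
      show _ = ∫ x, φ x ∂(law.prod (cascLaw ν r n)).map (V n)
      rw [integral_map (hV n).aemeasurable hφ.aestronglyMeasurable]
      exact (integral_prod (f := fun z => φ (V n z))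
        (Integrable.of_bound (hφ.measurable.comp (hV n)).aestronglyMeasurable B
          (Eventually.of_forall fun z => hB _))).symm
    have hg : Continuous fun ρ : ProbabilityMeasure (stdSimplex ℝ (Cube N)) =>
        ∫ x, φ x ∂(ρ : Measure (stdSimplex ℝ (Cube N))) :=
      ProbabilityMeasure.continuous_integral_boundedContinuousFunction
        (BoundedContinuousFunction.ofNormedAddCommGroup φ hφ B hB)
    have hc := hμ.map hg.continuousAt tendsto_map
    rw [Filter.map_map] at hc
    exact eq_of_nhds_neBot (hc.mono hT)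
  refine ⟨{ Ω := stdSimplex ℝ (Cube N)
            mΩ := inferInstance
            law := (μ : Measure (stdSimplex ℝ (Cube N)))
            w := fun x σ => x.1 σ },
    ⟨inferInstanceAs (IsProbabilityMeasure (μ : Measure (stdSimplex ℝ (Cube N)))),
      fun σ => (measurable_pi_apply σ).comp measurable_subtype_coe, fun x => x.2.1,
      fun x => x.2.2⟩, fun n F => ?_, fun f A hs => ?_⟩
  · set Z : (Fin (n + 1) → Cube N) → stdSimplex ℝ (Cube N) → ℝ :=
      fun σ x => ∏ l, x.1 (σ l) with hZ
    have hZc : ∀ σ, Continuous (Z σ) := fun σ =>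
      continuous_finsetProd _ fun l _ => (continuous_apply _).comp continuous_subtype_val
    have hle : ∀ x : stdSimplex ℝ (Cube N), ∀ τ, x.1 τ ≤ 1 := fun x τ =>
      (Finset.single_le_sum (fun i _ => x.2.1 i) (Finset.mem_univ τ)).trans x.2.2.le
    have hZb : ∀ σ x, |Z σ x| ≤ 1 := fun σ x => by
      simp only [hZ]
      rw [abs_of_nonneg (Finset.prod_nonneg fun l _ => x.2.1 _)]
      exact Finset.prod_le_one (fun l _ => x.2.1 _) fun l _ => hle x _
    have hLm : ∀ σ : Fin (n + 1) → Cube N,
        Measurable fun e => tiltMoment ν m (sumW (w e)) fun l => w e (σ l) := fun σ =>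
      measurable_tiltMoment ν m (g := fun l e => w e (σ l)) hsu fun l => hwu (σ l)
    have hmain : ∀ σ, ∫ x, Z σ x ∂(μ : Measure (stdSimplex ℝ (Cube N))) =
        ∫ e, tiltMoment ν m (sumW (w e)) (fun l => w e (σ l)) ∂law := fun σ =>
      key (Z σ) 1 _ (hZc σ) (hZb σ) (hLm σ) fun e => by
        refine (tendsto_cascVec_prod ν hm (hC e) σ).congr' ?_
        filter_upwards [eventually_pos r] with k hk
        refine integral_congr_ae ((ae_good ν r k).mono fun t ht => ?_)
        simp only [V, hZ, toSimplex, dif_pos (cascVec_mem (hC e) m hk ht)]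
    have hmb : ∀ σ : Fin (n + 1) → Cube N, ∀ e,
        |tiltMoment ν m (sumW (w e)) fun l => w e (σ l)| ≤ 1 := fun σ e => by
      refine le_of_tendsto (tendsto_cascVec_prod ν hm (hC e) σ).abs ?_
      filter_upwards [eventually_pos r] with k hk
      have h := norm_integral_le_of_norm_le_const (μ := cascLaw ν r k) (C := 1)
        (f := fun t => ∏ l, cascVec m k (w e) t (σ l)) ((ae_good ν r k).mono fun t ht =>
          hZb σ ⟨_, cascVec_mem (hC e) m hk ht⟩)
      simpa using h
    show ∫ x, ∑ σ, Z σ x * F σ ∂(μ : Measure (stdSimplex ℝ (Cube N))) = _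
    simp only [nRep]
    rw [integral_finsetSum _ fun σ _ => ((Integrable.of_bound (hZc σ).aestronglyMeasurable 1
        (Eventually.of_forall (hZb σ))).mul_const _),
      integral_finsetSum _ fun σ _ => ((Integrable.of_bound (hLm σ).aestronglyMeasurable 1
        (Eventually.of_forall (hmb σ))).const_mul _)]
    refine Finset.sum_congr rfl fun σ _ => ?_
    rw [integral_mul_const, integral_const_mul, hmain σ, mul_comm]
  · have hLm : Measurable fun e => patInc ν m f (w e) :=
      ((((measurable_Phi ν m (measW_patU hs hw)).sub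
        ((measurable_Phi ν m hw).comp measurable_fst))).stronglyMeasurable.integral_prod_right'
          (ν := gam (Fin N))).measurable
    rw [← key (gainAt f) A _ (continuous_gainAt hs) (abs_gainAt_le hs) hLm fun e =>
      tendsto_cascVec_gain ν hm (hC e) hs]
    refine integral_congr_ae (Eventually.of_forall fun x => ?_)
    have hmp := measurePreserving_funUnique (gam (Fin N)) (Fin 1)
    have h := hmp.integral_comp' (g := logSum x.1 f (unitVec (N := N)))
    refine Eq.trans ?_ h
    refine integral_congr_ae (Eventually.of_forall fun g => ?_)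
    simp [logSum, MeasurableEquiv.funUnique]

end Vale.Agent.P166.NW
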