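import Vale.Agent.P166.NW.Main
import Vale.Agent.P166.NW.Quad.Levels
import Vale.Agent.P166.NW.State
import Vale.Agent.P166.NW.SiteMono
import Vale.Agent.P166.NW.PressureGap
import Vale.Agent.P166.NW.GG.Main
import Vale.Agent.P166.NW.Gain.Main
import Vale.Agent.P166.NW.Chain.Main
import Vale.Agent.P166.NW.Chain.Var
import Vale.Agent.P166.NW.Spec.Bridge
import Vale.Agent.P157.Parisi.ModA.Slope
import Vale.Agent.P157.Parisi.ModA.TreeShape
import Vale.Agent.P157.Parisi.ModA.Bridge
import Vale.Agent.P157.Parisi.ModA.TiltFactor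
import Vale.Agent.P157.Parisi.TreeApprox.Main
import Vale.Agent.P157.Parisi.Cont.Main
import Vale.Agent.P157.Parisi.Cavity.Change
import Vale.Agent.P157.Parisi.Cavity.Main
import Vale.Agent.P157.Parisi.Site.Main
import Vale.Agent.P157.Parisi.Perturb.Main

/-! The formula for negative Wishart couplings, modulo the regularisation module. -/

open MeasureTheory ProbabilityTheory Filter
open scoped Topology

namespace Vale.Agent.P166.NW

open Vale.Agent.P157 Vale.Agent.P157.Parisi
open Vale.Agent.P166.Wishart (matrixPressure wishart)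

theorem wishart_formula_of (hG : GapStmt) (β t α : ℝ) (hβ : 0 < β) (ht : 0 < t) (hα : 0 < α) :
    BddBelow (parisiValues α (quadPot (β * t))) ∧
      Tendsto (fun N : ℕ => ∫ g, matrixPressure β (wishart (-t) g) ∂patterns ⌊α * N⌋₊ N) atTop
        (𝓝 (sInf (parisiValues α (quadPot (β * t))))) := by
  have hLow : LowerStmt := Parisi.Main.lower_of Perturb.perturb_stmt TreeApprox.treeApprox
    (Cont.contStmt tilt_factor tree_shape) (Cont.logStmt bridge) cavity pertChange
    (site_stmt (Cont.contStmt tilt_factor tree_shape) slope_spec)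
  have hGain : GainStmt :=
    Gain.gain_of GG.cascGG_stmt cascState slotVar TreeApprox.treeApprox (Cont.logStmt bridge)
  obtain ⟨hb, h⟩ := formula_of quad_stmt bregman_stmt hG siteMono pressureGap hGain chain
    slope_spec hLow (mul_pos hβ ht) hα
  refine ⟨hb, ?_⟩
  simpa only [← Spec.meanPressure_quad] using h

end Vale.Agent.P166.NW
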