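import Vale.Agent.P166.NW.Defs
import Vale.Agent.P157.Parisi.Upper.Site

/-!
Objects and interfaces of the proof of the formula for negative Wishart couplings at all
temperatures: weights carried by a cascade, their nested replica means, and the slot family.
-/

noncomputable section

open MeasureTheory ProbabilityTheory Filter
open scoped BigOperators NNReal ENNReal Topology

namespace Vale.Agent.P166.NW

open Vale.Agent.P157 Vale.Agent.P157.Parisi Vale.Agent.P157.Parisi.Up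
open Vale.Agent.P168.Cascade (Exps Bdd tiltMoment)

variable {r N : ℕ} {β : Type} [MeasurableSpace β]

/-- The weight of all configurations at a leaf. -/
def sumW (w : Cube N → (Fin r → β) → ℝ) (η : Fin r → β) : ℝ := ∑ σ, w σ η

/-- The mean of a function of `n` replicas under weights carried by a cascade. -/
def nRep (ν : Measure β) (m : Fin r → ℝ) (w : Cube N → (Fin r → β) → ℝ) (n : ℕ)
    (F : (Fin n → Cube N) → ℝ) : ℝ :=
  ∑ σ : Fin n → Cube N, F σ * tiltMoment ν m (sumW w) (fun l => w (σ l))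

/-- The gain of one fresh pattern. -/
def patInc (ν : Measure β) (m : Fin r → ℝ) (f : ℝ → ℝ) (w : Cube N → (Fin r → β) → ℝ) : ℝ :=
  ∫ g, (Phi ν m (fun σ η => w σ η * patU f g σ) - Phi ν m w) ∂gam (Fin N)

/-- The overlap pairing with a field path `s`. -/
def fieldPair (ν : Measure β) (m : Fin r → ℝ) (s : Fin (r + 1) → ℝ)
    (w : Cube N → (Fin r → β) → ℝ) : ℝ :=
  ∑ p : Fin (r + 1), weight m p * (s p * bVal ν m w p)

/-- Weights with the perturbation. -/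
def pertW {D : Type} {L : ℕ} (w : D → Cube N → (Fin r → β) → ℝ) (s : ℝ) (x : Fin L → ℝ)
    (e : D × (PertIdx N L → ℝ)) : Cube N → (Fin r → β) → ℝ :=
  fun σ η => w e.1 σ η * Real.exp (pertH s x e.2 σ)

/-- The law of the disorder and the perturbation. -/
def famLaw {D : Type} [MeasurableSpace D] (law : Measure D) (N L : ℕ) :
    Measure (D × (PertIdx N L → ℝ)) :=
  law.prod (gam (PertIdx N L))

/-- The free energy averaged over the perturbation. -/
def pertPhi {D : Type} {L : ℕ} (ν : Measure β) (m : Fin r → ℝ)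
    (w : D → Cube N → (Fin r → β) → ℝ) (s : ℝ) (x : Fin L → ℝ) (d : D) : ℝ :=
  ∫ J, Phi ν m (pertW w s x (d, J)) ∂gam (PertIdx N L)

/-! ### The slot family -/

/-- A coin with bias `ε`. -/
def bern (ε : ℝ) : Measure Bool :=
  ENNReal.ofReal ε • Measure.dirac true + ENNReal.ofReal (1 - ε) • Measure.dirac false

/-- The disorder of `j` slots of patterns and `k` fields. -/
abbrev SlotDis (N j k : ℕ) := ((Fin j → Bool) × (Fin j → Fin N → ℝ)) × (Fin k → Fin N → ℝ)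

/-- The marks of `k` fields. -/
abbrev slotMarks (N k : ℕ) : Measure (Fin k → Fin N → ℝ) := Measure.pi fun _ => gam (Fin N)

/-- Its law. -/
def slotLaw (N j k : ℕ) (ε : ℝ) : Measure (SlotDis N j k) :=
  ((Measure.pi fun _ : Fin j => bern ε).prod (Measure.pi fun _ : Fin j => gam (Fin N))).prod
    (slotMarks N k)

/-- The weights of `j` slots of patterns and `k` fields of the path `ρ`. -/
def slotW {j k : ℕ} (f : ℝ → ℝ) (δ a : ℝ) (ρ : Fin (r + 1) → ℝ) (d : SlotDis N j k)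
    (σ : Cube N) (η : Fin r → Fin k → Fin N → ℝ) : ℝ :=
  ((2 : ℝ) ^ N)⁻¹ *
    Real.exp (∑ b, if d.1.1 b then f (dot (d.1.2 b) (unitVec σ)) else 0) *
    fieldsW δ a ρ d.2 σ η

/-- The averaged gain of a slot. -/
def slotGain {j k : ℕ} (m : Fin r → ℝ) (f : ℝ → ℝ) (ε δ a : ℝ) (ρ s : Fin (r + 1) → ℝ) : ℝ :=
  ∫ x, ∫ e, (patInc (slotMarks N k) m f (pertW (slotW f δ a ρ) (scale N) x e) +
      1 / 2 * fieldPair (slotMarks N k) m s (pertW (slotW f δ a ρ) (scale N) x e))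
    ∂famLaw (slotLaw N j k ε) N N ∂xLaw N

/-- The parameters of a slot family with `L` slots. -/
def SlotParams (α a : ℝ) (r N L : ℕ) (ρ : Fin (r + 1) → ℝ) : Prop :=
  0 < N ∧ 0 < L ∧ α * N / L ≤ 1 ∧ fieldM (1 / (L : ℝ)) a N ρ ≤ 1 / 10

/-! ### Interfaces -/

/-- Module A1: the quadratic recursion in closed form. -/
def QuadStmt : Prop :=
  ∀ (θ : ℝ), 0 < θ → ∀ ξ : Path,
    (∀ p x, level ξ.m ξ.q (topMean (quadPot θ) (1 - ξ.q (Fin.last ξ.r))) p x =
      quadConst θ ξ.m ξ.q p - θ / denom θ ξ.m ξ.q p * x ^ 2 / 2) ∧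
    patValue (quadPot θ) ξ.m ξ.q = quadValue θ ξ.m ξ.q ∧
    ∀ p, slope (quadPot θ) ξ.m ξ.q p = quadSlope θ ξ.m ξ.q p

/-- A number is below the pairing of `s` with every overlap law coupled to the path `ξ'`. -/
def PairBound (ξ ξ' : Path) (s : Fin (ξ.r + 1) → ℝ) (E : ℝ) : Prop :=
  ∀ c : Fin ξ.r → ℝ, (∀ i, c i ∈ Set.Icc (0 : ℝ) 1) →
    E ≤ s 0 * (∑ p, weight ξ'.m p * ξ'.q p) + ∑ i : Fin ξ.r, (s i.succ - s i.castSucc) *
      (c i * (1 - ξ.m i) + ∑ p, weight ξ'.m p * max (ξ'.q p - c i) 0)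

/-- Module A2: concavity of the pattern value along paths. -/
def BregmanStmt : Prop :=
  ∀ (θ : ℝ), 0 < θ → ∀ (ξ ξ' : Path) (E : ℝ), PairBound ξ ξ' (quadSlope θ ξ.m ξ.q) E →
    quadValue θ ξ'.m ξ'.q + 1 / 2 * E ≤
      quadValue θ ξ.m ξ.q + 1 / 2 * ∑ p, weight ξ.m p * (ξ.q p * quadSlope θ ξ.m ξ.q p)

/-- Module B1: the regularisation changes pattern value and conjugate path uniformly little. -/
def GapStmt : Prop :=
  ∀ (θ : ℝ), 0 < θ → ∀ η > 0, ∃ ε₀ ∈ Set.Ioo (0 : ℝ) 1, ∀ ε : ℝ, 0 < ε → ε ≤ ε₀ →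
    (∃ A, Smooth (epsPot θ ε) A) ∧ ∀ ξ : Path,
      patValue (quadPot θ) ξ.m ξ.q ≤ patValue (epsPot θ ε) ξ.m ξ.q ∧
      patValue (epsPot θ ε) ξ.m ξ.q ≤ patValue (quadPot θ) ξ.m ξ.q + η ∧
      ∀ p, |slope (epsPot θ ε) ξ.m ξ.q p - slope (quadPot θ) ξ.m ξ.q p| ≤ η

/-- Module B2: the site value is almost decreasing in the field path. -/
def SiteMonoStmt : Prop :=
  ∀ (r : ℕ) (m : Fin r → ℝ), Exps m → ∀ (ρ ρ' : Fin (r + 1) → ℝ) (δ : ℝ), 0 ≤ δ →
    Monotone ρ → 0 ≤ ρ 0 → Monotone ρ' → 0 ≤ ρ' 0 → (∀ p, ρ' p ≤ ρ p + δ) →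
    siteValue m ρ - δ ≤ siteValue m ρ'

/-- Module B3: the regularisation changes the pressure uniformly little. -/
def PressureGapStmt : Prop :=
  ∀ (θ : ℝ), 0 < θ → ∀ η > 0, ∃ ε₀ ∈ Set.Ioo (0 : ℝ) 1, ∀ ε : ℝ, 0 < ε → ε ≤ ε₀ →
    ∀ (α : ℝ), 0 < α → ∀ N : ℕ, 0 < N →
      meanPressure isingLaw α (quadPot θ) N ≤ meanPressure isingLaw α (epsPot θ ε) N ∧
      meanPressure isingLaw α (epsPot θ ε) N ≤ meanPressure isingLaw α (quadPot θ) N + α * η

/-- Module C: the perturbation forces the identities for weights carried by a cascade. -/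
def CascGGStmt : Prop :=
  ∀ (r : ℕ) (m : Fin r → ℝ), Exps m → ∀ K : ℝ, ∃ rate : ℕ → ℕ → ℝ,
    (∀ p, Tendsto (fun N => rate N p) atTop (𝓝 0)) ∧
    ∀ (N : ℕ), 0 < N → ∀ (β : Type) [MeasurableSpace β] (ν : Measure β) [IsProbabilityMeasure ν]
      (D : Type) [MeasurableSpace D] (law : Measure D) [IsProbabilityMeasure law]
      (w : D → Cube N → (Fin r → β) → ℝ) (C : ℝ), MeasW w → (∀ d, WBdd C (w d)) →
      (∀ x : Fin N → ℝ, (∀ i, |x i| ≤ 3) →
        variance (pertPhi ν m w (scale N) x) law ≤ K * N) →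
      ∃ δ : ℕ → (Fin N → ℝ) → ℝ, (∀ p, Measurable (δ p)) ∧
        (∀ p x, 0 ≤ δ p x ∧ δ p x ≤ 2) ∧ (∀ p, ∫ x, δ p x ∂xLaw N ≤ rate N p) ∧
        ∀ (p : ℕ) (x : Fin N → ℝ), (∀ i, x i ∈ Set.Icc (1 : ℝ) 2) →
          ∀ (n : ℕ) (F : (Fin (n + 1) → Cube N) → ℝ), (∀ σ, |F σ| ≤ 1) →
          |((n : ℝ) + 1) * ∫ e, nRep ν m (pertW w (scale N) x e) (n + 2)
              (fun σ => F (fun l => σ l.castSucc) *
                overlap (σ 0) (σ (Fin.last (n + 1))) ^ (p + 1)) ∂famLaw law N N -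
            ((∫ e, nRep ν m (pertW w (scale N) x e) (n + 1) F ∂famLaw law N N) *
                (∫ e, nRep ν m (pertW w (scale N) x e) 2
                  (fun σ => overlap (σ 0) (σ 1) ^ (p + 1)) ∂famLaw law N N) +
              ∑ l : Fin n, ∫ e, nRep ν m (pertW w (scale N) x e) (n + 1)
                (fun σ => F σ * overlap (σ 0) (σ l.succ) ^ (p + 1)) ∂famLaw law N N)| ≤
            ((n : ℝ) + 1) * δ p x

/-- Module D: weights carried by a cascade are a state. -/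
def CascStateStmt : Prop :=
  ∀ (N : ℕ), 0 < N → ∀ (r : ℕ) (m : Fin r → ℝ), Exps m →
    ∀ (β : Type) [MeasurableSpace β] (ν : Measure β) [IsProbabilityMeasure ν]
      (E : Type) [MeasurableSpace E] (law : Measure E) [IsProbabilityMeasure law]
      (w : E → Cube N → (Fin r → β) → ℝ), MeasW w → (∀ e, ∃ C, WBdd C (w e)) →
      ∃ S : State N, S.IsGood ∧
        (∀ (n : ℕ) (F : (Fin (n + 1) → Cube N) → ℝ),
          S.repMean (n + 1) F = ∫ e, nRep ν m (w e) (n + 1) F ∂law) ∧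
        ∀ (f : ℝ → ℝ) (A : ℝ), Smooth f A → S.logMean f 1 = ∫ e, patInc ν m f (w e) ∂law

/-- Module E1: the averaged gain of a slot, from the ultrametric limit of its state. -/
def GainStmt : Prop :=
  ∀ (α A a : ℝ) (f : ℝ → ℝ), 0 < α → 0 ≤ a → Smooth f A →
    ∀ (ξ : Path) (s : Fin (ξ.r + 1) → ℝ), Monotone s → 0 ≤ s 0 →
    ∀ B : ℝ, (∀ (ξ' : Path) (E : ℝ), PairBound ξ ξ' s E → patValue f ξ'.m ξ'.q + 1 / 2 * E ≤ B) →
    ∀ η > 0, ∀ᶠ N : ℕ in atTop, ∀ j k L : ℕ, j + k + 1 = L →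
      SlotParams α a ξ.r N L (fun p => α * s p) →
      slotGain (N := N) (j := j) (k := k) ξ.m f (α * N / L) (1 / (L : ℝ)) a
        (fun p => α * s p) s ≤ B + η

/-- Module E2a: self-averaging of the slot family. -/
def SlotVarStmt : Prop :=
  ∀ (α A a : ℝ) (f : ℝ → ℝ), 0 < α → 0 ≤ a → Smooth f A →
    ∀ (ξ : Path) (s : Fin (ξ.r + 1) → ℝ), Monotone s → 0 ≤ s 0 → ∃ K : ℝ,
    ∀ N j k L : ℕ, j + k + 1 = L → SlotParams α a ξ.r N L (fun p => α * s p) →
      ∀ x : Fin N → ℝ, (∀ i, |x i| ≤ 3) →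
        variance (pertPhi (slotMarks N k) ξ.m
            (slotW (j := j) f (1 / (L : ℝ)) a (fun p => α * s p)) (scale N) x)
          (slotLaw N j k (α * N / L)) ≤ K * N

/-- Module E2b: exchanging all slots. -/
def ChainStmt : Prop :=
  ∀ (α A : ℝ) (f : ℝ → ℝ), 0 < α → Smooth f A →
    ∀ (ξ : Path) (s : Fin (ξ.r + 1) → ℝ), Monotone s → 0 ≤ s 0 → ∀ B : ℝ,
    (∀ a : ℕ, ∀ η > 0, ∀ᶠ N : ℕ in atTop, ∀ j k L : ℕ, j + k + 1 = L →
      SlotParams α a ξ.r N L (fun p => α * s p) →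
      slotGain (N := N) (j := j) (k := k) ξ.m f (α * N / L) (1 / (L : ℝ)) a
        (fun p => α * s p) s ≤ B + η) →
    ∀ η > 0, ∀ᶠ N : ℕ in atTop,
      meanPressure isingLaw α f N ≤ siteValue ξ.m (fun p => α * s p) + α * B + η

end Vale.Agent.P166.NW
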