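import Vale.Agent.P166.NW.Base
import Vale.Agent.P166.NW.Quad.Bregman
import Vale.Agent.P157.Parisi.Main.Top
import Vale.Agent.P157.Parisi.Classes.Main

/-!
The formula for negative Wishart couplings, from the modules.
-/

noncomputable section

open MeasureTheory ProbabilityTheory Filter
open scoped BigOperators Topology

namespace Vale.Agent.P166.NW

open Vale.Agent.P157 Vale.Agent.P157.Parisi
open Vale.Agent.P168.Cascade (Exps)

variable {θ α : ℝ}

/-- Regularisation changes the functional uniformly little. -/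
theorem parisi_gap (hQ : QuadStmt) (hG : GapStmt) (hM : SiteMonoStmt) (hS : SlopeStmt)
    (hθ : 0 < θ) (hα : 0 < α) {η : ℝ} (hη : 0 < η) :
    ∃ ε₀ ∈ Set.Ioo (0 : ℝ) 1, ∀ ε : ℝ, 0 < ε → ε ≤ ε₀ → ∀ ξ : Path,
      |parisi α (epsPot θ ε) ξ.m ξ.q - parisi α (quadPot θ) ξ.m ξ.q| ≤ 3 * α * η := by
  obtain ⟨ε₀, hε₀, h⟩ := hG θ hθ η hη
  refine ⟨ε₀, hε₀, fun ε hε hle ξ => ?_⟩
  obtain ⟨⟨A, hA⟩, hξ⟩ := h ε hε hle
  obtain ⟨hp1, hp2, hsl⟩ := hξ ξ
  have hm : Exps ξ.m := ⟨ξ.isPath.pos, ξ.isPath.lt_one, ξ.isPath.strictMono⟩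
  obtain ⟨hmon, hnn⟩ := hS _ A hA ξ
  obtain ⟨-, -, hq⟩ := hQ θ hθ ξ
  set t := fun p => slope (epsPot θ ε) ξ.m ξ.q p
  set u := fun p => slope (quadPot θ) ξ.m ξ.q p
  have hqm : Monotone u := by
    intro a b hab
    simp only [u, hq]
    exact gap_slope_nonneg hθ.le (fun i => (hm.pos i).le) ξ.isPath.mono ξ.isPath.le_one hab
  have hu0 : 0 ≤ u 0 := by
    simp only [u, hq, quadSlope]
    exact mul_nonneg (sq_nonneg θ) (add_nonneg (div_nonneg ξ.isPath.nonneg (sq_nonneg _))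
      (Finset.sum_nonneg fun i _ => by simp))
  have hd : ∀ p, |t p - u p| ≤ η := hsl
  have hαη : 0 ≤ α * η := by positivity
  have s1 := hM ξ.r ξ.m hm (fun p => α * u p) (fun p => α * t p) (α * η) hαη
    (hqm.const_mul hα.le) (mul_nonneg hα.le hu0) (hmon.const_mul hα.le)
    (mul_nonneg hα.le (hnn 0).1) fun p => by
      have := mul_le_mul_of_nonneg_left (abs_le.1 (hd p)).2 hα.le
      simp only [t, u] at *; linarith
  have s2 := hM ξ.r ξ.m hm (fun p => α * t p) (fun p => α * u p) (α * η) hαη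
    (hmon.const_mul hα.le) (mul_nonneg hα.le (hnn 0).1) (hqm.const_mul hα.le)
    (mul_nonneg hα.le hu0) fun p => by
      have := mul_le_mul_of_nonneg_left (abs_le.1 (hd p)).1 hα.le
      simp only [t, u] at *; linarith
  have hw : |∑ p, weight ξ.m p * ξ.q p * t p - ∑ p, weight ξ.m p * ξ.q p * u p| ≤ η := by
    rw [← Finset.sum_sub_distrib]
    refine (Finset.abs_sum_le_sum_abs _ _).trans ?_
    calc ∑ p, |weight ξ.m p * ξ.q p * t p - weight ξ.m p * ξ.q p * u p|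
        ≤ ∑ p, weight ξ.m p * η := Finset.sum_le_sum fun p _ => by
          have w0 := Main.weight_nonneg ξ.isPath p
          have q0 := ξ.isPath.nonneg.trans (ξ.isPath.mono (Fin.zero_le p))
          have q1 := (ξ.isPath.mono (Fin.le_last p)).trans ξ.isPath.le_one
          rw [← mul_sub, abs_mul, abs_of_nonneg (mul_nonneg w0 q0)]
          exact mul_le_mul (mul_le_of_le_one_right w0 q1) (hd p) (abs_nonneg _) w0
      _ = η := by rw [← Finset.sum_mul, Up.sum_weight, one_mul]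
  obtain ⟨w1, w2⟩ := abs_le.1 hw
  have p1 := mul_le_mul_of_nonneg_left hp1 hα.le
  have p2 := mul_le_mul_of_nonneg_left hp2 hα.le
  have w1' := mul_le_mul_of_nonneg_left w1 (show (0 : ℝ) ≤ α / 2 by positivity)
  have w2' := mul_le_mul_of_nonneg_left w2 (show (0 : ℝ) ≤ α / 2 by positivity)
  unfold parisi
  simp only [t, u] at s1 s2 w1' w2'
  rw [abs_le]
  constructor <;> linarith

/-- The upper bound at every path. -/
theorem upper_quad (hQ : QuadStmt) (hB : BregmanStmt) (hG : GapStmt) (hP : PressureGapStmt)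
    (hGain : GainStmt) (hCh : ChainStmt) (hθ : 0 < θ) (hα : 0 < α) (ξ : Path) {η : ℝ}
    (hη : 0 < η) :
    ∀ᶠ N : ℕ in atTop,
      meanPressure isingLaw α (quadPot θ) N ≤ parisi α (quadPot θ) ξ.m ξ.q + η := by
  set η₁ := η / (α + 1) with hη₁
  have hη₁0 : 0 < η₁ := by positivity
  obtain ⟨e1, he1, hG1⟩ := hG θ hθ η₁ hη₁0
  obtain ⟨e2, he2, hP1⟩ := hP θ hθ η₁ hη₁0
  set ε := min e1 e2
  have hε : 0 < ε := lt_min he1.1 he2.1
  obtain ⟨⟨A, hA⟩, hpath⟩ := hG1 ε hε (min_le_left _ _)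
  have hm : Exps ξ.m := ⟨ξ.isPath.pos, ξ.isPath.lt_one, ξ.isPath.strictMono⟩
  set s := quadSlope θ ξ.m ξ.q
  have hs : Monotone s :=
    gap_slope_nonneg hθ.le (fun i => (hm.pos i).le) ξ.isPath.mono ξ.isPath.le_one
  have hs0 : 0 ≤ s 0 := mul_nonneg (sq_nonneg θ) (add_nonneg
    (div_nonneg ξ.isPath.nonneg (sq_nonneg _)) (Finset.sum_nonneg fun i _ => by simp))
  set B := quadValue θ ξ.m ξ.q + 1 / 2 * ∑ p, weight ξ.m p * (ξ.q p * s p) + η₁
  have hyp : ∀ (ξ' : Path) (E : ℝ), PairBound ξ ξ' s E →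
      patValue (epsPot θ ε) ξ'.m ξ'.q + 1 / 2 * E ≤ B := fun ξ' E hE => by
    have h1 := (hpath ξ').2.1
    rw [(hQ θ hθ ξ').2.1] at h1
    have := hB θ hθ ξ ξ' E hE
    simp only [B, s]
    linarith
  have hchain := hCh α A (epsPot θ ε) hα hA ξ s hs hs0 B
    (fun a η' hη' => hGain α A a (epsPot θ ε) hα (Nat.cast_nonneg a) hA ξ s hs hs0 B hyp η' hη')
    η₁ hη₁0
  filter_upwards [hchain, eventually_gt_atTop 0] with N hN hN0
  have h1 := (hP1 ε hε (min_le_right _ _) α hα N hN0).1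
  obtain ⟨-, hv, hsl⟩ := hQ θ hθ ξ
  have e : α * η₁ + η₁ = η := by rw [hη₁]; field_simp
  unfold parisi
  rw [hv, funext fun p => congrArg (α * ·) (hsl p)]
  simp only [hsl, mul_assoc]
  have eB : α * B = α * quadValue θ ξ.m ξ.q + α / 2 * ∑ p, weight ξ.m p * (ξ.q p * s p) +
      α * η₁ := by simp only [B]; ring
  simp only [s] at hN eB ⊢
  linarith

/-- The formula for negative Wishart couplings. -/
theorem formula_of (hQ : QuadStmt) (hB : BregmanStmt) (hG : GapStmt) (hM : SiteMonoStmt)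
    (hP : PressureGapStmt) (hGain : GainStmt) (hCh : ChainStmt) (hS : SlopeStmt)
    (hLow : LowerStmt) (hθ : 0 < θ) (hα : 0 < α) :
    BddBelow (parisiValues α (quadPot θ)) ∧
      Tendsto (meanPressure isingLaw α (quadPot θ)) atTop
        (𝓝 (sInf (parisiValues α (quadPot θ)))) := by
  have hbd : BddBelow (parisiValues α (quadPot θ)) := by
    obtain ⟨e, he, h⟩ := parisi_gap hQ hG hM hS hθ hα one_pos
    obtain ⟨e', he', h'⟩ := hG θ hθ 1 one_pos
    set ε := min e e'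
    have hε : 0 < ε := lt_min he.1 he'.1
    obtain ⟨⟨A, hA⟩, -⟩ := h' ε hε (min_le_right _ _)
    obtain ⟨b, hb⟩ := Classes.bddBelow_parisiValues hS hα hA
    refine ⟨b - 3 * α * 1, ?_⟩
    rintro v ⟨r, m, q, hq, rfl⟩
    have h1 := (abs_le.1 (h ε hε (min_le_left _ _) ⟨r, m, q, hq⟩)).2
    have h2 := hb ⟨r, m, q, hq, rfl⟩
    linarith
  refine ⟨hbd, ?_⟩
  rw [Metric.tendsto_nhds]
  intro δ hδ
  set η := δ / (8 * (α + 1)) with hη
  have hη0 : 0 < η := by positivity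
  obtain ⟨e1, he1, h1⟩ := parisi_gap hQ hG hM hS hθ hα hη0
  obtain ⟨e2, he2, h2⟩ := hP θ hθ η hη0
  obtain ⟨e3, he3, h3⟩ := hG θ hθ η hη0
  set ε := min e1 (min e2 e3)
  have hε : 0 < ε := lt_min he1.1 (lt_min he2.1 he3.1)
  obtain ⟨⟨A, hA⟩, -⟩ := h3 ε hε ((min_le_right _ _).trans (min_le_right _ _))
  have hcmp : sInf (parisiValues α (quadPot θ)) - 3 * α * η ≤
      sInf (parisiValues α (epsPot θ ε)) := by
    refine le_csInf (Main.parisiValues_nonempty _ _) ?_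
    rintro v ⟨r, m, q, hq, rfl⟩
    have ha := (abs_le.1 (h1 ε hε (min_le_left _ _) ⟨r, m, q, hq⟩)).1
    have hb := csInf_le hbd ⟨r, m, q, hq, rfl⟩
    linarith
  obtain ⟨v, ⟨r, m, q, hq, rfl⟩, hv⟩ :=
    exists_lt_of_csInf_lt (Main.parisiValues_nonempty α (quadPot θ))
      (show sInf (parisiValues α (quadPot θ)) < sInf (parisiValues α (quadPot θ)) + δ / 4 by
        linarith)
  filter_upwards [Main.lower_sInf hLow hα hA (Classes.bddBelow_parisiValues hS hα hA) hη0,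
    upper_quad hQ hB hG hP hGain hCh hθ hα ⟨r, m, q, hq⟩ (show 0 < δ / 4 by linarith),
    eventually_gt_atTop 0] with N hl hu hN
  have hp := (h2 ε hε ((min_le_right _ _).trans (min_le_left _ _)) α hα N hN).2
  have e : 8 * (α * η) + 8 * η = δ := by rw [hη]; field_simp
  have hα0 : 0 ≤ α * η := by positivity
  rw [Real.dist_eq, abs_lt]
  constructor <;> linarith

end Vale.Agent.P166.NW
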